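import Mathlib

/-!
P134: Brandt's interior gradient bound by comparison, and the resulting bounds on the derivatives
of bounded solutions of `Δu = u ^ 3 - u`.
-/

noncomputable section

open Topology Filter Laplacian

namespace Vale.Agent.P134

variable {n : ℕ}

/-- Euclidean space. -/
abbrev Spc (n : ℕ) := EuclideanSpace ℝ (Fin n)

/-- The second derivative. -/
def hess (u : Spc n → ℝ) (x : Spc n) : Spc n →L[ℝ] Spc n →L[ℝ] ℝ := fderiv ℝ (fderiv ℝ u) x

/-- The standard basis. -/
abbrev bas (i : Fin n) : Spc n := EuclideanSpace.basisFun (Fin n) ℝ i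

lemma lap_eq (u : Spc n → ℝ) (x : Spc n) : Δ u x = ∑ i, hess u x (bas i) (bas i) := by
  rw [InnerProductSpace.laplacian_eq_iteratedFDeriv_orthonormalBasis u (EuclideanSpace.basisFun (Fin n) ℝ)]
  simp [iteratedFDeriv_two_apply, hess]

lemma differentiable_fderiv {u : Spc n → ℝ} (hu : ContDiff ℝ 2 u) :
    Differentiable ℝ (fderiv ℝ u) :=
  (hu.fderiv_right (m := 1) le_rfl).differentiable one_ne_zero

lemma differentiable_of_two {u : Spc n → ℝ} (hu : ContDiff ℝ 2 u) : Differentiable ℝ u :=
  hu.differentiable (by norm_num)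

lemma continuous_hess {u : Spc n → ℝ} (hu : ContDiff ℝ 2 u) : Continuous (hess u) :=
  (hu.fderiv_right (m := 1) le_rfl).continuous_fderiv one_ne_zero

lemma hasDerivAt_line {u : Spc n → ℝ} (hu : Differentiable ℝ u) (x v : Spc n) (s : ℝ) :
    HasDerivAt (fun s : ℝ => u (x + s • v)) (fderiv ℝ u (x + s • v) v) s := by
  refine (hu (x + s • v)).hasFDerivAt.comp_hasDerivAt s ?_
  simpa using ((hasDerivAt_id s).smul_const v).const_add x

lemma hasDerivAt_line_fderiv {u : Spc n → ℝ} (hu : ContDiff ℝ 2 u) (x v w : Spc n) (s : ℝ) :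
    HasDerivAt (fun s : ℝ => fderiv ℝ u (x + s • v) w) (hess u (x + s • v) v w) s := by
  have h1 : HasDerivAt (fun s : ℝ => fderiv ℝ u (x + s • v)) (hess u (x + s • v) v) s := by
    refine (differentiable_fderiv hu (x + s • v)).hasFDerivAt.comp_hasDerivAt s ?_
    simpa using ((hasDerivAt_id s).smul_const v).const_add x
  exact ((ContinuousLinearMap.apply ℝ ℝ w).hasFDerivAt.comp_hasDerivAt s h1)

lemma hess_nonneg_of_isLocalMin {u : Spc n → ℝ} (hu : ContDiff ℝ 2 u) {x : Spc n}
    (h : IsLocalMin u x) (v : Spc n) : 0 ≤ hess u x v v := by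
  by_contra hneg
  push Not at hneg
  set g : ℝ → ℝ := fun s => u (x + s • v) with hg
  have hd1 : deriv g = fun s => fderiv ℝ u (x + s • v) v :=
    funext fun s => (hasDerivAt_line (differentiable_of_two hu) x v s).deriv
  have hd2 : deriv (deriv g) 0 = hess u x v v := by
    rw [hd1, (hasDerivAt_line_fderiv hu x v v 0).deriv]
    simp
  have hmin : IsLocalMin g 0 := by
    have hc : ContinuousAt (fun s : ℝ => x + s • v) 0 := by fun_prop
    have := h
    simp only [IsLocalMin, IsMinFilter] at this ⊢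
    have h' := hc.tendsto.eventually (by simpa using this)
    simpa [hg] using h'
  have hd0 : deriv g 0 = 0 := hmin.deriv_eq_zero
  have hmax := isLocalMax_of_deriv_deriv_neg (by rw [hd2]; exact hneg) hd0
    (hasDerivAt_line (differentiable_of_two hu) x v 0).continuousAt
  have hconst : g =ᶠ[𝓝 0] fun _ => g 0 := by
    filter_upwards [hmin, hmax] with s h1 h2
    exact le_antisymm h2 h1
  have hd : deriv g =ᶠ[𝓝 0] fun _ => (0 : ℝ) := by
    refine hconst.eventuallyEq_nhds.mono fun s hs => ?_
    rw [hs.deriv_eq, deriv_const]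
  have h0 : deriv (deriv g) 0 = 0 := by rw [hd.deriv_eq, deriv_const]
  linarith [hd2 ▸ h0]

/-- The barrier. -/
def barrier (A K : ℝ) (i : Fin n) (x : Spc n) : ℝ :=
  A * ‖x‖ ^ 2 + K * (x i - x i ^ 2)

lemma barrier_contDiff (A K : ℝ) (i : Fin n) : ContDiff ℝ 2 (barrier A K i) := by
  have h : ContDiff ℝ 2 fun x : Spc n => x i := (EuclideanSpace.proj i : Spc n →L[ℝ] ℝ).contDiff
  exact (contDiff_const.mul (contDiff_norm_sq ℝ)).add (contDiff_const.mul (h.sub (h.pow 2)))

lemma hess_eq_deriv {u : Spc n → ℝ} (hu : ContDiff ℝ 2 u) (x v w : Spc n) {d : ℝ}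
    (h : HasDerivAt (fun s : ℝ => fderiv ℝ u (x + s • v) w) d 0) : hess u x v w = d := by
  have := (hasDerivAt_line_fderiv hu x v w 0).unique h
  simpa using this

lemma barrier_hess (A K : ℝ) (i : Fin n) (x v : Spc n) :
    hess (barrier A K i) x v v = 2 * A * ‖v‖ ^ 2 - 2 * K * v i ^ 2 := by
  let p : Spc n →L[ℝ] ℝ := EuclideanSpace.proj i
  have hfd : ∀ y, fderiv ℝ (barrier A K i) y v =
      2 * A * inner ℝ y v + K * ((1 - 2 * y i) * v i) := by
    intro y
    have h1 := (hasStrictFDerivAt_norm_sq y).hasFDerivAt.const_mul A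
    have hp : HasFDerivAt (fun z : Spc n => z i) p y := p.hasFDerivAt
    have h2 := ((hp.sub (hp.pow 2)).const_mul K)
    have h := (h1.add h2).fderiv
    rw [show barrier A K i = fun y : Spc n => A * ‖y‖ ^ 2 + K * (y i - y i ^ 2) from rfl]
    rw [show (fun y : Spc n => A * ‖y‖ ^ 2 + K * (y i - y i ^ 2)) =
      ((fun y : Spc n => A * ‖y‖ ^ 2) + fun y : Spc n => K * (y i - y i ^ 2)) from rfl]
    erw [h]
    simp [p]
    ring
  refine hess_eq_deriv (barrier_contDiff A K i) x v v ?_
  simp only [hfd]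
  have hl : HasDerivAt (fun s : ℝ => x + s • v) v 0 := by
    simpa using ((hasDerivAt_id (0 : ℝ)).smul_const v).const_add x
  have h1 := ((hl.inner ℝ (hasDerivAt_const (0 : ℝ) v))).const_mul (2 * A)
  have h2 : HasDerivAt (fun s : ℝ => (x + s • v) i) (v i) 0 :=
    p.hasFDerivAt.comp_hasDerivAt 0 hl
  have h3 := ((((hasDerivAt_const (0 : ℝ) (1 : ℝ)).sub (h2.const_mul 2)).mul_const (v i))).const_mul K
  refine (h1.add h3).congr_deriv ?_
  simp [real_inner_self_eq_norm_sq]
  ring

/-- Reflection of the `i`-th coordinate. -/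
def reflect (i : Fin n) : Spc n →L[ℝ] Spc n :=
  ContinuousLinearMap.id ℝ _ - (2 : ℝ) • (EuclideanSpace.proj i).smulRight (bas i)

lemma reflect_apply (i : Fin n) (x : Spc n) : reflect i x = x - (2 * x i) • bas i := by
  simp [reflect, smul_smul]

lemma hess_sub_comp (u : Spc n → ℝ) (hu : ContDiff ℝ 2 u) (L : Spc n →L[ℝ] Spc n) (x : Spc n)
    (v : Spc n) : hess (fun y => (u y - u (L y)) / 2) x v v =
      (hess u x v v - hess u (L x) (L v) (L v)) / 2 := by
  have hc : ContDiff ℝ 2 fun y => (u y - u (L y)) / 2 := (hu.sub (hu.comp L.contDiff)).div_const 2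
  have hfd : ∀ y, fderiv ℝ (fun y => (u y - u (L y)) / 2) y v =
      (fderiv ℝ u y v - fderiv ℝ u (L y) (L v)) / 2 := by
    intro y
    have h1 := hasDerivAt_line (differentiable_of_two hu) y v 0
    have h2 := hasDerivAt_line (differentiable_of_two hu) (L y) (L v) 0
    have h3 := hasDerivAt_line (differentiable_of_two hc) y v 0
    have h4 := (h1.sub h2).div_const 2
    simp only [zero_smul, add_zero] at h1 h2 h3 h4
    refine h3.unique (h4.congr_of_eventuallyEq (Eventually.of_forall fun s => ?_))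
    simp [map_add, map_smul]
  refine hess_eq_deriv hc x v v ?_
  simp only [hfd]
  have h1 := hasDerivAt_line_fderiv hu x v v 0
  have h2 := hasDerivAt_line_fderiv hu (L x) (L v) (L v) 0
  simp only [zero_smul, add_zero] at h1 h2
  refine ((h1.sub h2).div_const 2).congr_of_eventuallyEq (Eventually.of_forall fun s => ?_)
  simp [map_add, map_smul]

/-- Brandt's gradient bound at the origin. -/
lemma abs_fderiv_zero_le {u : Spc n → ℝ} (hu : ContDiff ℝ 2 u) {A N : ℝ}
    (hA : ∀ x, |u x| ≤ A) (hN : ∀ x, |Δ u x| ≤ N) (i : Fin n) :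
    |fderiv ℝ u 0 (bas i)| ≤ A * n + N / 2 := by
  refine le_of_forall_pos_le_add fun ε hε => ?_
  set M := N + 2 * ε
  set K := A * n + M / 2 with hK
  set L := reflect i
  set w := fun y => (u y - u (L y)) / 2 with hw
  have hA0 : 0 ≤ A := (abs_nonneg _).trans (hA 0)
  have hN0 : 0 ≤ N := (abs_nonneg _).trans (hN 0)
  have hK0 : 0 ≤ K := by positivity
  have hwc : ContDiff ℝ 2 w := (hu.sub (hu.comp L.contDiff)).div_const 2
  have hbi : ∀ j, (bas j : Spc n) i = if i = j then 1 else 0 := fun j => by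
    simp [bas, EuclideanSpace.basisFun_apply, PiLp.single_apply]
  have hLb : ∀ j, L (bas j) = if i = j then -bas j else bas j := by
    intro j
    simp only [L, reflect_apply, hbi]
    split_ifs with h
    · subst h
      module
    · simp
  have hlapw : ∀ x, ∑ j, hess w x (bas j) (bas j) = (Δ u x - Δ u (L x)) / 2 := by
    intro x
    rw [lap_eq, lap_eq, ← Finset.sum_sub_distrib, Finset.sum_div]
    refine Finset.sum_congr rfl fun j _ => ?_
    rw [hess_sub_comp u hu L x, hLb]
    split_ifs <;> simp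
  have hlapB : ∀ x, ∑ j, hess (barrier A K i) x (bas j) (bas j) = -M := by
    intro x
    simp only [barrier_hess, hbi, OrthonormalBasis.norm_eq_one, one_pow, mul_one,
      Finset.sum_sub_distrib, Finset.sum_const, Finset.card_univ, Fintype.card_fin, nsmul_eq_mul]
    simp [hK]
    ring
  -- compare on the half box
  set S : Set (Spc n) := {x | 0 ≤ x i ∧ x i ≤ 1 ∧ ∀ j, |x j| ≤ 1} with hS
  have hproj : ∀ j, Continuous fun x : Spc n => x j := fun j => (EuclideanSpace.proj j).continuous
  have hSc : IsCompact S := by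
    refine Metric.isCompact_of_isClosed_isBounded ?_ ?_
    · simp only [hS, Set.ofPred_and, Set.ofPred_forall]
      exact (isClosed_le continuous_const (hproj i)).inter ((isClosed_le (hproj i)
        continuous_const).inter (isClosed_iInter fun j => isClosed_le ((hproj j).abs)
          continuous_const))
    · refine isBounded_iff_forall_norm_le.2 ⟨Real.sqrt n, fun x hx => ?_⟩
      rw [EuclideanSpace.norm_eq]
      refine Real.sqrt_le_sqrt ?_
      refine (Finset.sum_le_card_nsmul _ _ 1 fun j _ => ?_).trans (by simp)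
      rw [Real.norm_eq_abs, sq_abs]
      have := hx.2.2 j
      nlinarith [abs_le.1 this]
  have hcmp : ∀ σ : ℝ, σ = 1 ∨ σ = -1 → ∀ x ∈ S, 0 ≤ barrier A K i x - σ * w x := by
    intro σ hσ
    have hσ1 : |σ| = 1 := by rcases hσ with rfl | rfl <;> simp
    set Z := fun x => barrier A K i x - σ * w x with hZ
    have hZc : ContDiff ℝ 2 Z := (barrier_contDiff A K i).sub (contDiff_const.mul hwc)
    obtain ⟨x, hx, hxmin⟩ := hSc.exists_isMinOn
      ⟨0, by simp [hS]⟩ hZc.continuous.continuousOn
    suffices h0 : 0 ≤ Z x from fun y hy => h0.trans (hxmin hy)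
    have hwA : |σ * w x| ≤ A := by
      rw [abs_mul, hσ1, one_mul, hw, abs_div, abs_two, div_le_iff₀ two_pos]
      linarith [abs_sub (u x) (u (L x)), hA x, hA (L x)]
    have hwA' := (abs_le.1 hwA).2
    have hsq : 0 ≤ ‖x‖ ^ 2 := sq_nonneg _
    have hi2 : 0 ≤ x i - x i ^ 2 := by nlinarith [hx.1, hx.2.1]
    by_cases h1 : x i = 0
    · have : L x = x := by simp [L, reflect_apply, h1]
      simp only [hZ, hw, this, sub_self, zero_div, mul_zero, sub_zero, barrier]
      positivity
    by_cases h2 : ∃ j, |x j| = 1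
    · obtain ⟨j, hj⟩ := h2
      have : 1 ≤ ‖x‖ ^ 2 := by
        rw [EuclideanSpace.norm_sq_eq]
        refine le_trans ?_ (Finset.single_le_sum (fun l _ => sq_nonneg _) (Finset.mem_univ j))
        rw [Real.norm_eq_abs, hj, one_pow]
      simp only [hZ, barrier]
      nlinarith [mul_nonneg hK0 hi2]
    push Not at h2
    exfalso
    have hloc : IsLocalMin Z x := by
      refine hxmin.isLocalMin (Filter.mem_of_superset ?_ (le_refl S))
      have hopen : {y : Spc n | 0 < y i ∧ ∀ j, |y j| < 1} ∈ 𝓝 x := by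
        refine IsOpen.mem_nhds ?_ ⟨lt_of_le_of_ne hx.1 (Ne.symm h1),
          fun j => lt_of_le_of_ne (hx.2.2 j) (h2 j)⟩
        simp only [Set.ofPred_and, Set.ofPred_forall]
        exact (isOpen_lt continuous_const (hproj i)).inter (isOpen_iInter_of_finite fun j =>
          isOpen_lt (hproj j).abs continuous_const)
      exact Filter.mem_of_superset hopen fun y hy =>
        ⟨hy.1.le, (le_abs_self _).trans (hy.2 i).le, fun j => (hy.2 j).le⟩
    have hsplit : ∀ j, hess Z x (bas j) (bas j) =
        hess (barrier A K i) x (bas j) (bas j) - σ * hess w x (bas j) (bas j) := by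
      intro j
      refine hess_eq_deriv hZc x _ _ ?_
      have e : ∀ y, fderiv ℝ Z y (bas j) =
          fderiv ℝ (barrier A K i) y (bas j) - σ * fderiv ℝ w y (bas j) := by
        intro y
        rw [(((differentiable_of_two (barrier_contDiff A K i)) y).hasFDerivAt.fun_sub
          ((differentiable_of_two hwc y).hasFDerivAt.const_mul σ)).fderiv]
        simp
      simp only [e]
      have q1 := hasDerivAt_line_fderiv (barrier_contDiff A K i) x (bas j) (bas j) 0
      have q2 := hasDerivAt_line_fderiv hwc x (bas j) (bas j) 0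
      simp only [zero_smul, add_zero] at q1 q2
      exact q1.sub (q2.const_mul σ)
    have hpos : 0 ≤ ∑ j, hess Z x (bas j) (bas j) :=
      Finset.sum_nonneg fun j _ => hess_nonneg_of_isLocalMin hZc hloc _
    simp only [hsplit, Finset.sum_sub_distrib, ← Finset.mul_sum, hlapB, hlapw] at hpos
    have hb : |σ * ((Δ u x - Δ u (L x)) / 2)| ≤ N := by
      rw [abs_mul, hσ1, one_mul, abs_div, abs_two, div_le_iff₀ two_pos]
      linarith [abs_sub (Δ u x) (Δ u (L x)), hN x, hN (L x)]
    linarith [(abs_le.1 hb).1]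
  -- the derivative at the origin
  set a := fderiv ℝ u 0 (bas i)
  have hline : ∀ s : ℝ, ((s • bas i : Spc n) i = s) ∧ ‖(s • bas i : Spc n)‖ ^ 2 = s ^ 2 := fun s => by
    constructor
    · simp [hbi]
    · rw [norm_smul, OrthonormalBasis.norm_eq_one, mul_one, Real.norm_eq_abs, sq_abs]
  have hder : HasDerivAt (fun s : ℝ => w (s • bas i)) a 0 := by
    have h1 := hasDerivAt_line (differentiable_of_two hu) 0 (bas i) 0
    have h2 := hasDerivAt_line (differentiable_of_two hu) 0 (-bas i) 0
    simp only [zero_add, zero_smul, map_neg] at h1 h2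
    have h3 := (h1.sub h2).div_const 2
    have e : (fderiv ℝ u 0 (bas i) - -fderiv ℝ u 0 (bas i)) / 2 = a := by simp [a]
    rw [e] at h3
    refine h3.congr_of_eventuallyEq (Eventually.of_forall fun s => ?_)
    have hL : L (s • bas i) = s • -bas i := by rw [map_smul, hLb, if_pos rfl]
    simp only [hw, hL, Pi.sub_apply]
  have hle : ∀ σ : ℝ, σ = 1 ∨ σ = -1 → σ * a ≤ K := by
    intro σ hσ
    have hs := (hder.const_mul σ).tendsto_slope_zero_right
    have hlim : Tendsto (fun s : ℝ => A * s + K) (𝓝[>] 0) (𝓝 (A * 0 + K)) :=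
      (((continuous_const.mul continuous_id).add continuous_const).tendsto 0).mono_left
        nhdsWithin_le_nhds
    rw [mul_zero, zero_add] at hlim
    refine le_of_tendsto_of_tendsto hs hlim ?_
    filter_upwards [Ioo_mem_nhdsGT one_pos] with s hs
    obtain ⟨e1, e2⟩ := hline s
    have hmem : (s • bas i : Spc n) ∈ S := by
      refine ⟨by rw [e1]; exact hs.1.le, by rw [e1]; exact hs.2.le, fun j => ?_⟩
      have : |(s • bas i : Spc n) j| ≤ ‖(s • bas i : Spc n)‖ := by
        simpa only [Real.norm_eq_abs] using PiLp.norm_apply_le (s • bas i : Spc n) j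
      rw [norm_smul, OrthonormalBasis.norm_eq_one, mul_one, Real.norm_eq_abs, abs_of_pos hs.1] at this
      exact this.trans hs.2.le
    have h := hcmp σ hσ _ hmem
    rw [barrier, e1, e2] at h
    have hw0 : w ((0 : ℝ) • bas i) = 0 := by simp [hw]
    simp only [zero_add, hw0, mul_zero, sub_zero, smul_eq_mul]
    rw [inv_mul_le_iff₀ hs.1]
    nlinarith [mul_nonneg hK0 (sq_nonneg s)]
  have h1 := hle 1 (Or.inl rfl)
  have h2 := hle (-1) (Or.inr rfl)
  exact abs_le.2 ⟨by simp only [hK] at h2; linarith, by simp only [hK] at h1; linarith⟩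

lemma fderiv_translate (u : Spc n → ℝ) (a : Spc n) :
    fderiv ℝ (fun y => u (y + a)) = fun y => fderiv ℝ u (y + a) :=
  funext fun _ => fderiv_comp_add_right a

lemma hess_translate (u : Spc n → ℝ) (a x : Spc n) :
    hess (fun y => u (y + a)) x = hess u (x + a) := by
  rw [hess, fderiv_translate]
  exact fderiv_comp_add_right a

lemma lap_translate (u : Spc n → ℝ) (a x : Spc n) : Δ (fun y => u (y + a)) x = Δ u (x + a) := by
  simp only [lap_eq, hess_translate]

/-- The constant of the gradient bound. -/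
def gc (n : ℕ) : ℝ := n * (n + 1)

lemma gc_nonneg (n : ℕ) : 0 ≤ gc n := by unfold gc; positivity

/-- The gradient bound. -/
theorem norm_fderiv_le {u : Spc n → ℝ} (hu : ContDiff ℝ 2 u) {A N : ℝ}
    (hA : ∀ x, |u x| ≤ A) (hN : ∀ x, |Δ u x| ≤ N) (x : Spc n) :
    ‖fderiv ℝ u x‖ ≤ gc n * (A + N) := by
  have hA0 : 0 ≤ A := (abs_nonneg _).trans (hA 0)
  have hN0 : 0 ≤ N := (abs_nonneg _).trans (hN 0)
  refine ContinuousLinearMap.opNorm_le_bound _ (mul_nonneg (gc_nonneg n) (by linarith)) fun v => ?_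
  have hv : v = ∑ i, v i • bas i := by
    conv_lhs => rw [← (EuclideanSpace.basisFun (Fin n) ℝ).sum_repr v]
    simp
  have hi : ∀ i, |fderiv ℝ u x (bas i)| ≤ (n + 1) * (A + N) := by
    intro i
    have h := abs_fderiv_zero_le (u := fun y => u (y + x))
      (hu.comp (contDiff_id.add contDiff_const)) (fun y => hA _)
      (fun y => by rw [lap_translate]; exact hN _) i
    rw [fderiv_translate] at h
    simp only [zero_add] at h
    have : (0 : ℝ) ≤ n * N := by positivity
    nlinarith
  conv_lhs => rw [hv]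
  rw [map_sum, Real.norm_eq_abs]
  refine (Finset.abs_sum_le_sum_abs _ _).trans ?_
  refine (Finset.sum_le_card_nsmul _ _ (‖v‖ * ((n + 1) * (A + N))) fun i _ => ?_).trans (le_of_eq ?_)
  · rw [map_smul, smul_eq_mul, abs_mul]
    exact mul_le_mul (PiLp.norm_apply_le v i) (hi i) (abs_nonneg _) (norm_nonneg _)
  · simp [gc]; ring

end Vale.Agent.P134

end
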