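import Vale.Agent.P134.Cut

/-!
P134: bumps and the smoothed absolute value.
-/

noncomputable section

open Topology Filter Laplacian MeasureTheory Module

namespace Vale.Agent.P134

variable {n : ℕ}

lemma hasDerivAt_sqMax (s : ℝ) : HasDerivAt (fun s : ℝ => max s 0 ^ 2) (2 * max s 0) s := by
  rcases lt_trichotomy s 0 with h | rfl | h
  · refine ((hasDerivAt_const s (0 : ℝ)).congr_of_eventuallyEq ?_).congr_deriv
      (by rw [max_eq_right h.le, mul_zero])
    filter_upwards [Iio_mem_nhds h] with t ht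
    simp [max_eq_right (le_of_lt (Set.mem_Iio.1 ht))]
  · rw [max_self, mul_zero, hasDerivAt_iff_isLittleO_nhds_zero]
    refine Asymptotics.IsBigO.trans_isLittleO (g := fun t : ℝ => t ^ 2) ?_
      (by simpa using Asymptotics.isLittleO_pow_pow (𝕜 := ℝ) one_lt_two)
    refine Asymptotics.IsBigO.of_bound 1 (Eventually.of_forall fun t => ?_)
    rcases le_total t 0 with ht | ht <;> simp [ht, sq_nonneg]
  · refine ((hasDerivAt_pow 2 s).congr_of_eventuallyEq ?_).congr_deriv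
      (by rw [max_eq_left h.le]; norm_num)
    filter_upwards [Ioi_mem_nhds h] with t ht
    simp [max_eq_left (le_of_lt (Set.mem_Ioi.1 ht))]

/-- The radial profile. -/
def tent (μ : ℝ) (y : Spc n) : ℝ := max (μ ^ 2 - ‖y‖ ^ 2) 0

/-- The bump. -/
def bump (μ : ℝ) (y : Spc n) : ℝ := tent μ y ^ 2

lemma tent_nonneg (μ : ℝ) (y : Spc n) : 0 ≤ tent μ y := le_max_right _ _

lemma tent_le (μ : ℝ) (y : Spc n) : tent μ y ≤ μ ^ 2 :=
  max_le (by nlinarith [sq_nonneg ‖y‖]) (sq_nonneg μ)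

lemma norm_lt_of_tent {μ : ℝ} (hμ : 0 ≤ μ) {y : Spc n} (h : tent μ y ≠ 0) : ‖y‖ < μ := by
  by_contra hh
  push Not at hh
  exact h (max_eq_right (by nlinarith [norm_nonneg y]))

lemma continuous_tent (μ : ℝ) : Continuous (tent (n := n) μ) :=
  (continuous_const.sub (continuous_norm.pow 2)).max continuous_const

lemma hasCompactSupport_tent {μ : ℝ} (hμ : 0 ≤ μ) : HasCompactSupport (tent (n := n) μ) :=
  HasCompactSupport.intro (isCompact_closedBall 0 μ) fun y hy => by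
    by_contra h
    exact hy (mem_closedBall_zero_iff.2 (norm_lt_of_tent hμ h).le)

lemma bump_hasFDerivAt (μ : ℝ) (y : Spc n) :
    HasFDerivAt (bump μ) ((-4 * tent μ y) • innerSL ℝ y) y := by
  have h := (hasDerivAt_sqMax (μ ^ 2 - ‖y‖ ^ 2)).comp_hasFDerivAt y
    ((hasStrictFDerivAt_norm_sq y).hasFDerivAt.const_sub (μ ^ 2))
  refine h.congr_fderiv ?_
  refine ContinuousLinearMap.ext fun w => ?_
  simp [tent]
  ring

lemma bump_contDiff (μ : ℝ) : ContDiff ℝ 1 (bump (n := n) μ) := by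
  rw [contDiff_one_iff_fderiv]
  refine ⟨fun y => (bump_hasFDerivAt μ y).differentiableAt, ?_⟩
  rw [funext fun y => (bump_hasFDerivAt μ y).fderiv]
  exact (continuous_const.mul (continuous_tent μ)).smul (innerSL ℝ).continuous

lemma hasCompactSupport_bump {μ : ℝ} (hμ : 0 ≤ μ) : HasCompactSupport (bump (n := n) μ) :=
  (hasCompactSupport_tent hμ).comp_left (g := fun t : ℝ => t ^ 2) (by simp)

lemma fderiv_bump_sub (μ : ℝ) (c x w : Spc n) :
    fderiv ℝ (fun z => bump μ (z - c)) x w = -4 * tent μ (x - c) * inner ℝ (x - c) w := by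
  rw [fderiv_comp_sub, (bump_hasFDerivAt μ (x - c)).fderiv]
  rfl

lemma tent_scale {μ : ℝ} (hμ : 0 ≤ μ) (z : Spc n) : tent μ (μ • z) = μ ^ 2 * tent 1 z := by
  rw [tent, tent, norm_smul, Real.norm_eq_abs, abs_of_nonneg hμ, mul_max_of_nonneg _ _ (sq_nonneg μ)]
  congr 1 <;> ring

lemma integral_scale {μ : ℝ} (hμ : 0 < μ) (f : Spc n → ℝ) :
    ∫ y, f y = μ ^ n * ∫ z, f (μ • z) := by
  rw [Measure.integral_comp_smul_of_nonneg volume f μ (hR := hμ.le), finrank_euclideanSpace_fin,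
    smul_eq_mul]
  field_simp

lemma integral_tent {μ : ℝ} (hμ : 0 < μ) :
    ∫ y : Spc n, tent μ y = μ ^ (n + 2) * ∫ z : Spc n, tent 1 z := by
  rw [integral_scale hμ]
  simp only [tent_scale hμ.le, integral_const_mul]
  ring

lemma integral_tent_abs {μ : ℝ} (hμ : 0 < μ) (ℓ : Spc n →L[ℝ] ℝ) :
    ∫ y : Spc n, tent μ y * |ℓ y| = μ ^ (n + 3) * ∫ z : Spc n, tent 1 z * |ℓ z| := by
  rw [integral_scale hμ]
  simp only [tent_scale hμ.le, map_smul, smul_eq_mul, abs_mul, abs_of_pos hμ]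
  rw [show (fun z : Spc n => μ ^ 2 * tent 1 z * (μ * |ℓ z|)) =
    fun z => μ ^ 3 * (tent 1 z * |ℓ z|) from funext fun z => by ring, integral_const_mul]
  ring

/-- The smoothed absolute value. -/
def rabs (δ s : ℝ) : ℝ := Real.sqrt (s ^ 2 + δ ^ 2) - δ

/-- Its derivative. -/
def rabs' (δ s : ℝ) : ℝ := s / Real.sqrt (s ^ 2 + δ ^ 2)

section
variable {δ : ℝ} (hδ : 0 < δ) (s : ℝ)
include hδ

lemma rabs_hasDerivAt : HasDerivAt (rabs δ) (rabs' δ s) s := by
  have h := (((hasDerivAt_pow 2 s).add_const (δ ^ 2)).sqrt (by positivity)).sub_const δ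
  refine h.congr_deriv ?_
  unfold rabs'
  field_simp
  norm_num

lemma rabs_contDiff : ContDiff ℝ 1 (rabs δ) :=
  (((contDiff_id.pow 2).add contDiff_const).sqrt fun s => by positivity).sub contDiff_const

lemma rabs_nonneg : 0 ≤ rabs δ s := by
  have := Real.sqrt_le_sqrt (show δ ^ 2 ≤ s ^ 2 + δ ^ 2 by nlinarith [sq_nonneg s])
  rw [Real.sqrt_sq hδ.le] at this
  unfold rabs
  linarith

lemma sqrt_bounds : 0 < Real.sqrt (s ^ 2 + δ ^ 2) ∧ |s| ≤ Real.sqrt (s ^ 2 + δ ^ 2) ∧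
    δ ≤ Real.sqrt (s ^ 2 + δ ^ 2) ∧ Real.sqrt (s ^ 2 + δ ^ 2) ≤ |s| + δ := by
  refine ⟨by positivity, ?_, ?_, ?_⟩
  · exact Real.abs_le_sqrt (by nlinarith [sq_nonneg δ])
  · have := rabs_nonneg hδ s
    unfold rabs at this
    linarith
  · rw [Real.sqrt_le_iff]
    exact ⟨by positivity, by nlinarith [sq_abs s, abs_nonneg s]⟩

lemma rabs_le : rabs δ s ≤ |s| := by
  have := (sqrt_bounds hδ s).2.2.2
  unfold rabs
  linarith

lemma rabs'_abs_le : |rabs' δ s| ≤ 1 := by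
  obtain ⟨hp, h1, -, -⟩ := sqrt_bounds hδ s
  rw [rabs', abs_div, abs_of_pos hp, div_le_one hp]
  exact h1

lemma rabs'_mul_self : |s| - δ ≤ rabs' δ s * s := by
  obtain ⟨hp, h1, h2, h3⟩ := sqrt_bounds hδ s
  rw [rabs', div_mul_eq_mul_div, le_div_iff₀ hp]
  nlinarith [abs_mul_abs_self s, abs_nonneg s]

lemma rabs_mul_rabs' : |rabs δ s * rabs' δ s - s| ≤ 2 * δ := by
  have h := rabs'_abs_le hδ s
  have hp := (sqrt_bounds hδ s).1
  have e : rabs δ s * rabs' δ s - s = -(δ * rabs' δ s) := by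
    unfold rabs rabs'
    field_simp
    ring
  rw [e, abs_neg, abs_mul, abs_of_pos hδ]
  nlinarith

lemma rabs_sq_le : rabs δ s ^ 2 ≤ s ^ 2 := by
  rw [← sq_abs s]
  exact pow_le_pow_left₀ (rabs_nonneg hδ s) (rabs_le hδ s) 2

lemma sq_sub_rabs_sq : s ^ 2 - rabs δ s ^ 2 ≤ 2 * δ * |s| := by
  have h1 := (sqrt_bounds hδ s).2.1
  have h2 : |s| - rabs δ s ≤ δ := by unfold rabs; linarith
  have h3 := rabs_le hδ s
  have h4 := rabs_nonneg hδ s
  nlinarith [sq_abs s]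

end

lemma sq_sum_eq {ι : Type*} [Fintype ι] {a : ι → ℝ} (h : ∀ i j, i ≠ j → a i * a j = 0) :
    (∑ i, a i) ^ 2 = ∑ i, a i ^ 2 := by
  rw [sq, Finset.sum_mul_sum]
  refine Finset.sum_congr rfl fun i _ => ?_
  rw [Finset.sum_eq_single i (fun j _ hj => h i j hj.symm) (by simp), sq]

end Vale.Agent.P134

end
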