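import Vale.Agent.P134.Weak

/-!
P134: boxes adapted to a subspace, their integrals, and cutoffs.
-/

noncomputable section

open Topology Filter Laplacian MeasureTheory Module

namespace Vale.Agent.P134

variable {n : ℕ}

/-- A box adapted to a subspace. -/
def box (W : Submodule ℝ (Spc n)) (R R' : ℝ) : Set (Spc n) :=
  {x | ‖Wᗮ.starProjection x‖ ≤ R ∧ ‖W.starProjection x‖ ≤ R'}

lemma isClosed_box (W : Submodule ℝ (Spc n)) (R R' : ℝ) : IsClosed (box W R R') := by
  rw [box, Set.ofPred_and]
  exact (isClosed_le (Wᗮ.starProjection.continuous.norm) continuous_const).inter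
    (isClosed_le W.starProjection.continuous.norm continuous_const)

lemma isCompact_box (W : Submodule ℝ (Spc n)) (R R' : ℝ) : IsCompact (box W R R') := by
  refine Metric.isCompact_of_isClosed_isBounded (isClosed_box W R R')
    (isBounded_iff_forall_norm_le.2 ⟨R' + R, fun x hx => ?_⟩)
  conv_lhs => rw [← W.starProjection_add_starProjection_orthogonal x]
  exact (norm_add_le _ _).trans (add_le_add hx.2 hx.1)

lemma box_mono (W : Submodule ℝ (Spc n)) {R R' S S' : ℝ} (h : R ≤ S) (h' : R' ≤ S') :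
    box W R R' ⊆ box W S S' := fun _ hx => ⟨hx.1.trans h, hx.2.trans h'⟩

lemma prod_integral {ι : Type*} [Fintype ι] (b : OrthonormalBasis ι ℝ (Spc n))
    (φ : ι → ℝ → ℝ) (hφ : ∀ i, Integrable (φ i)) :
    Integrable (fun x : Spc n => ∏ i, φ i (b.repr x i)) ∧
      ∫ x : Spc n, ∏ i, φ i (b.repr x i) = ∏ i, ∫ s, φ i s := by
  have hp : MeasurePreserving (fun x : Spc n => WithLp.ofLp (b.repr x)) :=
    (PiLp.volume_preserving_ofLp ι).comp b.measurePreserving_repr
  have he : MeasurableEmbedding (fun x : Spc n => WithLp.ofLp (b.repr x)) :=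
    (MeasurableEquiv.toLp 2 (ι → ℝ)).symm.measurableEmbedding.comp
      b.repr.toHomeomorph.measurableEmbedding
  refine ⟨(hp.integrable_comp_emb he).2 (Integrable.fintype_prod hφ), ?_⟩
  exact (hp.integral_comp he (fun y => ∏ i, φ i (y i))).trans
    (integral_fintype_prod_volume_eq_prod φ)

/-- Integrals over boxes, from a bound by a product in an adapted basis. -/
lemma setIntegral_box_le (W : Submodule ℝ (Spc n)) {m : ℕ} (c : OrthonormalBasis (Fin m) ℝ Wᗮ)
    {F : Spc n → ℝ} (hF : Continuous F) {R R' : ℝ} (hR' : 0 ≤ R')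
    (φ : Fin m → ℝ → ℝ) (hφ : ∀ j, Continuous (φ j)) (hφ0 : ∀ j s, 0 ≤ φ j s)
    (hFφ : ∀ x ∈ box W R R', F x ≤ ∏ j, φ j (inner ℝ (c j : Spc n) x)) :
    ∫ x in box W R R', F x ≤
      (2 * R') ^ finrank ℝ W * ∏ j, ∫ s in Set.Icc (-R) R, φ j s := by
  set bb := ((stdOrthonormalBasis ℝ W).prod c).map W.orthogonalDecomposition.symm
  set Φ : (Fin (finrank ℝ W) ⊕ Fin m) → ℝ → ℝ := Sum.elim
    (fun _ => (Set.Icc (-R') R').indicator fun _ => 1)
    (fun j => (Set.Icc (-R) R).indicator (φ j))
  have hΦ : ∀ i, Integrable (Φ i) := by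
    rintro (i | j)
    · exact (integrable_indicator_iff measurableSet_Icc).2 continuous_const.integrableOn_Icc
    · exact (integrable_indicator_iff measurableSet_Icc).2 (hφ j).integrableOn_Icc
  obtain ⟨hint, hval⟩ := prod_integral bb Φ hΦ
  have h1 : ∀ i x, bb.repr x (Sum.inl i) = inner ℝ (stdOrthonormalBasis ℝ W i : Spc n) x := by
    intro i x
    rw [bb.repr_apply_apply]
    simp [bb]
  have h2 : ∀ j x, bb.repr x (Sum.inr j) = inner ℝ (c j : Spc n) x := by
    intro j x
    rw [bb.repr_apply_apply]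
    simp [bb]
  have hIn : ∀ i x, x ∈ box W R R' →
      inner ℝ (stdOrthonormalBasis ℝ W i : Spc n) x ∈ Set.Icc (-R') R' := by
    intro i x hx
    rw [Set.mem_Icc, ← abs_le, ← Submodule.starProjection_eq_self_iff.2
      (stdOrthonormalBasis ℝ W i).2, W.inner_starProjection_left_eq_right]
    refine (abs_real_inner_le_norm _ _).trans ?_
    rw [Submodule.norm_coe, OrthonormalBasis.norm_eq_one, one_mul]
    exact hx.2
  have hJn : ∀ j x, x ∈ box W R R' → inner ℝ (c j : Spc n) x ∈ Set.Icc (-R) R := by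
    intro j x hx
    rw [Set.mem_Icc, ← abs_le, ← Submodule.starProjection_eq_self_iff.2 (c j).2,
      Wᗮ.inner_starProjection_left_eq_right]
    refine (abs_real_inner_le_norm _ _).trans ?_
    rw [Submodule.norm_coe, OrthonormalBasis.norm_eq_one, one_mul]
    exact hx.1
  rw [← integral_indicator (isClosed_box W R R').measurableSet]
  refine (integral_mono ((integrable_indicator_iff (isClosed_box W R R').measurableSet).2
    (hF.continuousOn.integrableOn_compact (isCompact_box W R R'))) hint fun x => ?_).trans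
      (le_of_eq (hval.trans ?_))
  · by_cases hx : x ∈ box W R R'
    · rw [Set.indicator_of_mem hx]
      refine (hFφ x hx).trans (le_of_eq ?_)
      rw [Fintype.prod_sum_type]
      have : ∀ i, Φ (Sum.inl i) (bb.repr x (Sum.inl i)) = 1 := fun i => by
        rw [h1 i x]
        simp [Φ, Set.indicator_of_mem (hIn i x hx)]
      simp only [this, Finset.prod_const_one, one_mul]
      refine Finset.prod_congr rfl fun j _ => ?_
      rw [h2 j x]
      simp [Φ, Set.indicator_of_mem (hJn j x hx)]
    · rw [Set.indicator_of_notMem hx]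
      refine Finset.prod_nonneg fun i _ => ?_
      rcases i with i | j
      · exact Set.indicator_nonneg (fun _ _ => zero_le_one) _
      · exact Set.indicator_nonneg (fun s _ => hφ0 j s) _
  · rw [Fintype.prod_sum_type]
    simp only [Φ, Sum.elim_inl, Sum.elim_inr, integral_indicator measurableSet_Icc]
    congr 1
    simp
    rw [max_eq_left (by linarith), show R' + R' = 2 * R' by ring]

/-- Integrals over boxes, from a uniform bound. -/
lemma setIntegral_box_le_const (W : Submodule ℝ (Spc n)) {F : Spc n → ℝ} (hF : Continuous F)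
    {R R' M : ℝ} (hR : 0 ≤ R) (hR' : 0 ≤ R') (hM : 0 ≤ M) (hFM : ∀ x ∈ box W R R', F x ≤ M) :
    ∫ x in box W R R', F x ≤ M * ((2 * R') ^ finrank ℝ W * (2 * R) ^ finrank ℝ Wᗮ) := by
  have h := setIntegral_box_le W (stdOrthonormalBasis ℝ Wᗮ) (F := fun _ => (1 : ℝ))
    continuous_const (R := R) hR' (fun _ _ => 1) (fun _ => continuous_const)
    (fun _ _ => zero_le_one) (fun _ _ => by simp)
  have e : ∫ _ in Set.Icc (-R) R, (1 : ℝ) = 2 * R := by
    simp
    rw [max_eq_left (by linarith)]
    ring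
  simp only [e, Finset.prod_const, Finset.card_univ, Fintype.card_fin] at h
  refine le_trans ?_ (mul_le_mul_of_nonneg_left h hM)
  rw [← integral_const_mul]
  refine setIntegral_mono_on (hF.continuousOn.integrableOn_compact (isCompact_box W R R'))
    ((continuous_const (y := M * 1)).continuousOn.integrableOn_compact (isCompact_box W R R'))
    (isClosed_box W R R').measurableSet fun x hx => ?_
  simpa using hFM x hx

/-- A fixed cutoff on the line. -/
def chi (s : ℝ) : ℝ := Real.smoothTransition (2 - 2 * s)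

lemma chi_nonneg (s : ℝ) : 0 ≤ chi s := Real.smoothTransition.nonneg _

lemma chi_le_one (s : ℝ) : chi s ≤ 1 := Real.smoothTransition.le_one _

lemma chi_one {s : ℝ} (h : s ≤ 1 / 2) : chi s = 1 :=
  Real.smoothTransition.one_of_one_le (by linarith)

lemma chi_zero {s : ℝ} (h : 1 ≤ s) : chi s = 0 :=
  Real.smoothTransition.zero_of_nonpos (by linarith)

lemma chi_contDiff : ContDiff ℝ 1 chi :=
  Real.smoothTransition.contDiff.comp (contDiff_const.sub (contDiff_const.mul contDiff_id))

lemma chi_deriv_bound : ∃ B : ℝ, ∀ s, |deriv chi s| ≤ B := by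
  have hc := (chi_contDiff.continuous_deriv le_rfl).abs
  obtain ⟨B, hB⟩ := (isCompact_Icc (a := (1 / 2 : ℝ)) (b := 1)).exists_bound_of_continuousOn
    hc.continuousOn
  refine ⟨max B 0, fun s => ?_⟩
  by_cases hs : s ∈ Set.Icc (1 / 2 : ℝ) 1
  · exact (le_abs_self _).trans ((hB s hs).trans (le_max_left _ _))
  · have h : deriv chi s = 0 := by
      rw [Set.mem_Icc, not_and_or, not_le, not_le] at hs
      rcases hs with hs | hs
      · exact (IsLocalMax.deriv_eq_zero (Eventually.of_forall fun t =>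
          (chi_le_one t).trans (chi_one hs.le).ge))
      · exact (IsLocalMin.deriv_eq_zero (Eventually.of_forall fun t =>
          (chi_zero hs.le).le.trans (chi_nonneg t)))
    rw [h, abs_zero]
    exact le_max_right _ _

/-- A product cutoff. -/
def cut (a b : Spc n → ℝ) (x : Spc n) : ℝ := chi (a x) * chi (b x)

lemma cut_nonneg (a b : Spc n → ℝ) (x : Spc n) : 0 ≤ cut a b x :=
  mul_nonneg (chi_nonneg _) (chi_nonneg _)

lemma cut_le_one (a b : Spc n → ℝ) (x : Spc n) : cut a b x ≤ 1 :=
  mul_le_one₀ (chi_le_one _) (chi_nonneg _) (chi_le_one _)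

lemma cut_contDiff {a b : Spc n → ℝ} (ha : ContDiff ℝ 1 a) (hb : ContDiff ℝ 1 b) :
    ContDiff ℝ 1 (cut a b) :=
  (chi_contDiff.comp ha).mul (chi_contDiff.comp hb)

lemma cut_ne_zero {a b : Spc n → ℝ} {x : Spc n} (h : cut a b x ≠ 0) : a x < 1 ∧ b x < 1 := by
  constructor <;> by_contra hh <;> push Not at hh <;> apply h <;> simp [cut, chi_zero hh]

lemma fderiv_cut_eq_zero {a b : Spc n → ℝ} {x : Spc n} (h : cut a b x = 0) :
    fderiv ℝ (cut a b) x = 0 :=
  IsLocalMin.fderiv_eq_zero (Eventually.of_forall fun y => h.le.trans (cut_nonneg a b y))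

lemma fderiv_cut_le {a b : Spc n → ℝ} (ha : ContDiff ℝ 1 a) (hb : ContDiff ℝ 1 b) {B : ℝ}
    (hB : ∀ s, |deriv chi s| ≤ B) {x : Spc n} {α β : ℝ}
    (hα : ∀ w, |fderiv ℝ a x w| ≤ α * ‖w‖) (hβ : ∀ w, |fderiv ℝ b x w| ≤ β * ‖w‖) (w : Spc n) :
    |fderiv ℝ (cut a b) x w| ≤ B * (α + β) * ‖w‖ := by
  have hχ : ∀ s, HasDerivAt chi (deriv chi s) s := fun s =>
    (chi_contDiff.differentiable one_ne_zero s).hasDerivAt
  have h := ((hχ (a x)).comp_hasFDerivAt x (ha.differentiable one_ne_zero x).hasFDerivAt).mul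
    ((hχ (b x)).comp_hasFDerivAt x (hb.differentiable one_ne_zero x).hasFDerivAt)
  rw [show cut a b = (chi ∘ a) * (chi ∘ b) from rfl, h.fderiv]
  simp only [add_apply, smul_apply, smul_eq_mul, Function.comp_apply]
  refine (abs_add_le _ _).trans ?_
  have hB0 : 0 ≤ B := (abs_nonneg _).trans (hB 0)
  rw [mul_add, add_mul, add_comm (B * α * ‖w‖)]
  refine add_le_add ?_ ?_ <;> simp only [abs_mul, abs_of_nonneg (chi_nonneg _)]
  · refine (mul_le_mul (chi_le_one _) (mul_le_mul (hB _) (hβ w) (abs_nonneg _) hB0)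
      (mul_nonneg (abs_nonneg _) (abs_nonneg _)) zero_le_one).trans (le_of_eq ?_)
    ring
  · refine (mul_le_mul (chi_le_one _) (mul_le_mul (hB _) (hα w) (abs_nonneg _) hB0)
      (mul_nonneg (abs_nonneg _) (abs_nonneg _)) zero_le_one).trans (le_of_eq ?_)
    ring

/-- Squared norm of a projection. -/
lemma projSq_deriv (K : Submodule ℝ (Spc n)) (x w : Spc n) :
    |fderiv ℝ (fun y => ‖K.starProjection y‖ ^ 2) x w| ≤ 2 * ‖K.starProjection x‖ * ‖w‖ := by
  rw [(K.starProjection.hasFDerivAt.norm_sq).fderiv]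
  simp only [smul_apply, ContinuousLinearMap.coe_comp, Function.comp_apply, innerSL_apply_apply,
    nsmul_eq_mul, Nat.cast_ofNat]
  rw [abs_mul, abs_two, mul_assoc]
  refine mul_le_mul_of_nonneg_left ((abs_real_inner_le_norm _ _).trans ?_) two_pos.le
  exact mul_le_mul_of_nonneg_left (K.norm_starProjection_apply_le w) (norm_nonneg _)

lemma projSq_contDiff (K : Submodule ℝ (Spc n)) :
    ContDiff ℝ 1 fun y => ‖K.starProjection y‖ ^ 2 :=
  (contDiff_norm_sq ℝ).comp K.starProjection.contDiff

/-- The energy of a solution grows at most like the box, with transverse exponent two. -/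
def Energy (W : Submodule ℝ (Spc n)) (u : Spc n → ℝ) : Prop :=
  ∃ C : ℝ, 0 ≤ C ∧ ∀ R R' : ℝ, 1 ≤ R → R ≤ R' →
    ∫ x in box W R R', gdot u u x ≤ C * R ^ 2 * R' ^ finrank ℝ W

/-- The logarithmic gain. -/
lemma weighted_energy {W : Submodule ℝ (Spc n)} {u : Spc n → ℝ} (hu : ContDiff ℝ 1 u) {C : ℝ}
    (hC : ∀ R R' : ℝ, 1 ≤ R → R ≤ R' →
      ∫ x in box W R R', gdot u u x ≤ C * R ^ 2 * R' ^ finrank ℝ W) (J : ℕ) {R' : ℝ}
    (hR' : (2 : ℝ) ^ J ≤ R') :
    ∫ x in box W ((2 : ℝ) ^ J) R', gdot u u x / (1 + ‖Wᗮ.starProjection x‖ ^ 2) ≤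
      4 * C * (J + 1) * R' ^ finrank ℝ W := by
  set B : ℕ → Set (Spc n) := fun j => box W ((2 : ℝ) ^ j) R'
  set E := gdot u u
  have hE : Continuous E := continuous_gdot hu hu
  have hEi : ∀ j, Integrable ((B j).indicator E) := fun j =>
    (integrable_indicator_iff (isClosed_box _ _ _).measurableSet).2
      (hE.continuousOn.integrableOn_compact (isCompact_box _ _ _))
  have hd : Continuous fun x => E x / (1 + ‖Wᗮ.starProjection x‖ ^ 2) :=
    hE.div (continuous_const.add (Wᗮ.starProjection.continuous.norm.pow 2)) fun x => by positivity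
  rw [← integral_indicator (isClosed_box _ _ _).measurableSet]
  refine (integral_mono (g := fun x =>
      ∑ j ∈ Finset.range (J + 1), 4 / (4 : ℝ) ^ j * (B j).indicator E x)
    ((integrable_indicator_iff (isClosed_box _ _ _).measurableSet).2
      (hd.continuousOn.integrableOn_compact (isCompact_box _ _ _)))
    (integrable_finsetSum _ fun j _ => (hEi j).const_mul _) fun x => ?_).trans ?_
  · have hnn : ∀ j ∈ Finset.range (J + 1), 0 ≤ 4 / (4 : ℝ) ^ j * (B j).indicator E x := fun j _ =>
      mul_nonneg (by positivity) (Set.indicator_nonneg (fun y _ => gdot_self_nonneg u y) x)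
    by_cases hx : x ∈ box W ((2 : ℝ) ^ J) R'
    · rw [Set.indicator_of_mem hx]
      classical
      set s := ‖Wᗮ.starProjection x‖
      have hex : ∃ j, s ≤ (2 : ℝ) ^ j := ⟨J, hx.1⟩
      set j := Nat.find hex with hj
      have hjJ : j ≤ J := Nat.find_le hx.1
      refine le_trans ?_ (Finset.single_le_sum hnn (Finset.mem_range_succ_iff.2 hjJ))
      rw [Set.indicator_of_mem (show x ∈ B j from ⟨Nat.find_spec hex, hx.2⟩), div_eq_inv_mul]
      refine mul_le_mul_of_nonneg_right ?_ (gdot_self_nonneg u x)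
      rw [le_div_iff₀ (by positivity), inv_mul_le_iff₀ (by positivity)]
      rcases Nat.eq_zero_or_pos j with h0 | h0
      · rw [h0, pow_zero]
        nlinarith [sq_nonneg s]
      · have hlt : (2 : ℝ) ^ (j - 1) < s := not_le.1 (Nat.find_min hex (by omega))
        have h4 : ((2 : ℝ) ^ (j - 1)) ^ 2 = 4 ^ (j - 1) := by
          rw [← pow_mul, mul_comm, pow_mul]; norm_num
        have hs : (4 : ℝ) ^ (j - 1) ≤ s ^ 2 := h4 ▸ pow_le_pow_left₀ (by positivity) hlt.le 2
        have he : (4 : ℝ) ^ j = 4 ^ (j - 1) * 4 := by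
          rw [← pow_succ]; congr 1; omega
        rw [he]
        nlinarith
    · rw [Set.indicator_of_notMem hx]
      exact Finset.sum_nonneg hnn
  · rw [integral_finsetSum _ fun j _ => (hEi j).const_mul _]
    refine (Finset.sum_le_card_nsmul _ _ (4 * C * R' ^ finrank ℝ W) fun j hj => ?_).trans
      (le_of_eq (by simp; ring))
    rw [integral_const_mul, integral_indicator (isClosed_box _ _ _).measurableSet]
    have hjJ := Finset.mem_range_succ_iff.1 hj
    refine (mul_le_mul_of_nonneg_left (hC _ R' (one_le_pow₀ one_le_two)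
      ((pow_le_pow_right₀ one_le_two hjJ).trans hR')) (by positivity)).trans (le_of_eq ?_)
    rw [← pow_mul, mul_comm j, pow_mul]
    norm_num
    field_simp

end Vale.Agent.P134

end
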