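import Vale.Agent.P134.Weak

/-!
P134: from the key property to one-dimensional symmetry.
-/

noncomputable section

open Topology Filter Laplacian

namespace Vale.Agent.P134

variable {n : ℕ}

/-- Directional derivatives have vanishing differential at their zeros. -/
def KeyProp (u : Spc n → ℝ) : Prop :=
  ∀ x e, fderiv ℝ u x e = 0 → ∀ y, hess u x y e = 0

/-- The potential. -/
def pot (s : ℝ) : ℝ := (s ^ 2 - 1) ^ 2 / 4

lemma pot_hasDerivAt (s : ℝ) : HasDerivAt pot (nlf s) s := by
  refine ((((hasDerivAt_pow 2 s).sub_const 1).pow 2).div_const 4).congr_deriv ?_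
  simp [nlf]
  ring

lemma pot_nonneg (s : ℝ) : 0 ≤ pot s := by unfold pot; positivity

lemma nlf_zero_cases {a : ℝ} (h : nlf a = 0) : a = 0 ∨ a = 1 ∨ a = -1 := by
  have : a * ((a - 1) * (a + 1)) = 0 := by rw [← h, nlf]; ring
  simp only [mul_eq_zero, sub_eq_zero, add_eq_zero_iff_eq_neg] at this
  exact this

lemma pot_sub_le {a s : ℝ} (h : nlf a = 0) (hs : |s| ≤ 1) : pot s - pot a ≤ (s - a) ^ 2 := by
  obtain ⟨h1, h2⟩ := abs_le.1 hs
  rcases nlf_zero_cases h with rfl | rfl | rfl <;> unfold pot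
  · nlinarith [sq_nonneg s, mul_nonneg (sq_nonneg s) (show 0 ≤ 2 - s ^ 2 by nlinarith)]
  · nlinarith [mul_nonneg (sq_nonneg (s - 1)) (show 0 ≤ 4 - (s + 1) ^ 2 by nlinarith)]
  · nlinarith [mul_nonneg (sq_nonneg (s + 1)) (show 0 ≤ 4 - (s - 1) ^ 2 by nlinarith)]

/-- The gradient as a vector. -/
def grd (u : Spc n → ℝ) (x : Spc n) : Spc n := ∑ i, fderiv ℝ u x (bas i) • bas i

lemma fderiv_grd (u : Spc n → ℝ) (x : Spc n) : fderiv ℝ u x (grd u x) = gdot u u x := by
  simp [grd, gdot, map_sum]

lemma fderiv_eq_zero_of_gdot {u : Spc n → ℝ} {x : Spc n} (h : gdot u u x = 0) :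
    fderiv ℝ u x = 0 := by
  refine ContinuousLinearMap.ext fun w => ?_
  have := sq_fderiv_le u x w
  rw [h, mul_zero] at this
  simpa using pow_eq_zero_iff two_ne_zero |>.1 (le_antisymm this (sq_nonneg _))

/-- Where the gradient does not vanish, the Hessian is rank one along it. -/
lemma hess_formula {u : Spc n → ℝ} (hu : Sol u) (hk : KeyProp u) {x : Spc n}
    (hx : gdot u u x ≠ 0) (y : Spc n) (i : Fin n) :
    gdot u u x * hess u x y (bas i) =
      fderiv ℝ u x (bas i) * (nlf (u x) * fderiv ℝ u x y) := by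
  set s := gdot u u x
  set G := grd u x
  have hlin : ∀ y w, s * hess u x y w = fderiv ℝ u x w * hess u x y G := by
    intro y w
    have h := hk x (s • w - fderiv ℝ u x w • G)
      (by simp only [map_sub, map_smul, smul_eq_mul]; rw [fderiv_grd]; ring) y
    simp only [map_sub, map_smul, smul_eq_mul] at h
    linarith
  have hGG : hess u x G G = s * nlf (u x) := by
    have h1 : ∑ i, s * (s * hess u x (bas i) (bas i)) =
        ∑ i, fderiv ℝ u x (bas i) * (fderiv ℝ u x (bas i) * hess u x G G) :=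
      Finset.sum_congr rfl fun i _ => by
        rw [hlin (bas i) (bas i), ← mul_assoc s, mul_comm s, mul_assoc,
          hess_symm hu.smooth x (bas i) G, hlin G (bas i)]
    simp only [← mul_assoc, ← Finset.sum_mul, ← Finset.mul_sum, ← lap_eq, hu.lap_nlf] at h1
    rw [show ∑ i, fderiv ℝ u x (bas i) * fderiv ℝ u x (bas i) = s from rfl, mul_assoc] at h1
    exact (mul_left_cancel₀ hx h1).symm
  have hyG : hess u x y G = fderiv ℝ u x y * nlf (u x) := by
    refine mul_left_cancel₀ hx ?_
    rw [hess_symm hu.smooth x y G, hlin G y, hGG]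
    ring
  rw [hlin, hyG]
  ring

lemma gdot_self_hasDerivAt {u : Spc n → ℝ} (hu : ContDiff ℝ 2 u) (x y : Spc n) (t : ℝ) :
    HasDerivAt (fun t : ℝ => gdot u u (x + t • y))
      (2 * ∑ i, fderiv ℝ u (x + t • y) (bas i) * hess u (x + t • y) y (bas i)) t := by
  refine (HasDerivAt.fun_sum fun i _ => (hasDerivAt_line_fderiv hu x y (bas i) t).mul
    (hasDerivAt_line_fderiv hu x y (bas i) t)).congr_deriv ?_
  rw [Finset.mul_sum]
  exact Finset.sum_congr rfl fun i _ => by ring

/-- The Hamiltonian is constant. -/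
lemma hamiltonian {u : Spc n → ℝ} (hu : Sol u) (hk : KeyProp u) (x z : Spc n) :
    gdot u u x / 2 - pot (u x) = gdot u u z / 2 - pot (u z) := by
  set y := x - z
  have hd : ∀ t : ℝ, HasDerivAt (fun t : ℝ => gdot u u (z + t • y) / 2 - pot (u (z + t • y)))
      0 t := by
    intro t
    set p := z + t • y
    refine (((gdot_self_hasDerivAt hu.smooth z y t).div_const 2).sub
      ((pot_hasDerivAt (u p)).comp t (hasDerivAt_line (differentiable_of_two hu.smooth) z y t))
      ).congr_deriv ?_
    rcases eq_or_ne (gdot u u p) 0 with h | h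
    · have h0 := fderiv_eq_zero_of_gdot h
      simp [p, h0]
    · have e : ∑ i, fderiv ℝ u p (bas i) * hess u p y (bas i) = nlf (u p) * fderiv ℝ u p y := by
        refine mul_left_cancel₀ h ?_
        rw [Finset.mul_sum]
        conv_rhs => rw [gdot, Finset.sum_mul]
        refine Finset.sum_congr rfl fun i _ => ?_
        rw [← mul_assoc, mul_comm (gdot u u p), mul_assoc, hess_formula hu hk h]
        ring
      rw [e]
      ring
  have := is_const_of_deriv_eq_zero (fun t => (hd t).differentiableAt) (fun t => (hd t).deriv) 1 0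
  simpa [y] using this

/-- A zero of the gradient forces a constant. -/
lemma const_of_critical {u : Spc n → ℝ} (hu : Sol u) (hk : KeyProp u) {z : Spc n}
    (hz : gdot u u z = 0) : nlf (u z) = 0 ∧ ∀ x, u x = u z := by
  have h0 := fderiv_eq_zero_of_gdot hz
  have hf : nlf (u z) = 0 := by
    rw [← hu.lap_nlf, lap_eq]
    exact Finset.sum_eq_zero fun i _ => hk z (bas i) (by simp [h0]) (bas i)
  refine ⟨hf, fun x => ?_⟩
  set y := x - z
  set q := fun t : ℝ => u (z + t • y) - u z
  set K := 4 * ‖y‖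
  have hq : ∀ t, |fderiv ℝ u (z + t • y) y| ≤ 2 * ‖y‖ * |q t| := by
    intro t
    have h1 := hamiltonian hu hk (z + t • y) z
    rw [hz] at h1
    have h2 := pot_sub_le hf (hu.bound (z + t • y))
    have h3 := sq_fderiv_le u (z + t • y) y
    rw [← pow_le_pow_iff_left₀ (abs_nonneg _) (by positivity) two_ne_zero, sq_abs, mul_pow, mul_pow,
      sq_abs]
    refine h3.trans ?_
    have h4 : gdot u u (z + t • y) ≤ 2 * q t ^ 2 := by
      have h5 : pot (u (z + t • y)) - pot (u z) ≤ q t ^ 2 := h2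
      linarith
    nlinarith [mul_le_mul_of_nonneg_left h4 (sq_nonneg ‖y‖), mul_nonneg (sq_nonneg ‖y‖) (sq_nonneg (q t))]
  have hd : ∀ t, HasDerivAt (fun t => q t ^ 2 * Real.exp (-(K * t)))
      (2 * q t * fderiv ℝ u (z + t • y) y * Real.exp (-(K * t)) -
        q t ^ 2 * (Real.exp (-(K * t)) * K)) t := by
    intro t
    refine ((((hasDerivAt_line (differentiable_of_two hu.smooth) z y t).sub_const (u z)).pow 2).mul
      (((hasDerivAt_id t).const_mul K).neg.exp)).congr_deriv ?_
    simp [q]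
    ring
  have hanti : Antitone fun t => q t ^ 2 * Real.exp (-(K * t)) := by
    refine antitone_of_deriv_nonpos (fun t => (hd t).differentiableAt) fun t => ?_
    rw [(hd t).deriv]
    have e : 2 * q t * fderiv ℝ u (z + t • y) y ≤ q t ^ 2 * K := by
      refine (le_abs_self _).trans ?_
      rw [abs_mul, abs_mul, abs_two, ← sq_abs (q t)]
      nlinarith [mul_le_mul_of_nonneg_left (hq t) (abs_nonneg (q t))]
    nlinarith [mul_le_mul_of_nonneg_right e (Real.exp_pos (-(K * t))).le]
  have h1 := hanti zero_le_one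
  simp only [q, zero_smul, add_zero, sub_self, one_smul, y, add_sub_cancel] at h1
  have h2 : (u x - u z) ^ 2 ≤ 0 := by
    by_contra h
    push Not at h
    have : 0 < (u x - u z) ^ 2 * Real.exp (-(K * 1)) := mul_pos h (Real.exp_pos _)
    norm_num at h1
    norm_num at this
    linarith
  exact sub_eq_zero.1 (pow_eq_zero_iff two_ne_zero |>.1 (le_antisymm h2 (sq_nonneg _)))

/-- A one-dimensional solution with nonvanishing gradient. -/
structure Profile (u : Spc n → ℝ) (ν : Spc n) (g d : ℝ → ℝ) : Prop where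
  unit : ‖ν‖ = 1
  eq : ∀ x, u x = g (inner ℝ ν x)
  deriv : ∀ t, HasDerivAt g (d t) t
  deriv2 : ∀ t, HasDerivAt d (nlf (g t)) t
  pos : ∀ t, 0 < d t
  bound : ∀ t, |g t| ≤ 1
  gdot_eq : ∀ x, gdot u u x = d (inner ℝ ν x) ^ 2

lemma norm_sq_sum (c : Fin n → ℝ) : ‖∑ i, c i • (bas i : Spc n)‖ ^ 2 = ∑ i, c i ^ 2 := by
  rw [← real_inner_self_eq_norm_sq, (EuclideanSpace.basisFun (Fin n) ℝ).orthonormal.inner_sum]
  simp [sq]

/-- One-dimensional symmetry from the key property. -/
theorem const_or_profile {u : Spc n → ℝ} (hu : Sol u) (hk : KeyProp u) :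
    (∃ a, nlf a = 0 ∧ ∀ x, u x = a) ∨ ∃ ν g d, Profile u ν g d := by
  by_cases hz : ∃ z, gdot u u z = 0
  · obtain ⟨z, hz⟩ := hz
    exact Or.inl ⟨u z, const_of_critical hu hk hz⟩
  push Not at hz
  right
  have hpos : ∀ x, 0 < gdot u u x := fun x => lt_of_le_of_ne (gdot_self_nonneg u x) (Ne.symm (hz x))
  set N : Fin n → Spc n → ℝ := fun i x => fderiv ℝ u x (bas i) / Real.sqrt (gdot u u x) with hN
  have hNc : ∀ i x, N i x = N i 0 := by
    intro i x
    have hd : ∀ t : ℝ, HasDerivAt (fun t : ℝ => N i (0 + t • x)) 0 t := by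
      intro t
      set p := (0 : Spc n) + t • x
      have hp := hpos p
      have hsq : Real.sqrt (gdot u u p) ^ 2 = gdot u u p := Real.sq_sqrt hp.le
      have hs0 : 0 < Real.sqrt (gdot u u p) := Real.sqrt_pos.2 hp
      refine ((hasDerivAt_line_fderiv hu.smooth 0 x (bas i) t).div
        ((gdot_self_hasDerivAt hu.smooth 0 x t).sqrt hp.ne') hs0.ne').congr_deriv ?_
      have e : ∑ j, fderiv ℝ u p (bas j) * hess u p x (bas j) = nlf (u p) * fderiv ℝ u p x := by
        refine mul_left_cancel₀ hp.ne' ?_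
        rw [Finset.mul_sum]
        conv_rhs => rw [gdot, Finset.sum_mul]
        refine Finset.sum_congr rfl fun j _ => ?_
        rw [← mul_assoc, mul_comm (gdot u u p), mul_assoc, hess_formula hu hk hp.ne']
        ring
      rw [e, div_eq_zero_iff]
      left
      simp only [p] at *
      field_simp
      rw [hsq]
      linear_combination hess_formula hu hk hp.ne' x i
    have := is_const_of_deriv_eq_zero (fun t => (hd t).differentiableAt) (fun t => (hd t).deriv) 1 0
    simpa using this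
  set ν := ∑ i, N i 0 • (bas i : Spc n) with hν
  have hDu : ∀ x w, fderiv ℝ u x w = Real.sqrt (gdot u u x) * inner ℝ ν w := by
    intro x w
    conv_lhs => rw [← (EuclideanSpace.basisFun (Fin n) ℝ).sum_repr' w, map_sum]
    rw [hν, sum_inner, Finset.mul_sum]
    refine Finset.sum_congr rfl fun i _ => ?_
    rw [map_smul, smul_eq_mul, real_inner_smul_left, ← hNc i x]
    have := Real.sqrt_pos.2 (hpos x)
    simp only [hN, bas]
    field_simp
  have hνn : ‖ν‖ = 1 := by
    refine (pow_eq_one_iff_of_nonneg (norm_nonneg ν) two_ne_zero).1 ?_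
    rw [hν, norm_sq_sum]
    have := Real.sq_sqrt (hpos (0 : Spc n)).le
    have h0 := (hpos (0 : Spc n)).ne'
    simp only [hN, div_pow, this, ← Finset.sum_div]
    rw [div_eq_one_iff_eq h0]
    simp [gdot, sq]
  set g := fun t : ℝ => u (t • ν)
  set d := fun t : ℝ => fderiv ℝ u (t • ν) ν
  have hνν : inner ℝ ν ν = (1 : ℝ) := by rw [real_inner_self_eq_norm_sq, hνn, one_pow]
  have hdd : ∀ t, d t = Real.sqrt (gdot u u (t • ν)) := fun t => by simp only [d, hDu, hνν, mul_one]
  have heq : ∀ x, u x = g (inner ℝ ν x) := by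
    intro x
    set p := (inner ℝ ν x : ℝ) • ν with hp
    set y := x - p with hy
    have hνy : inner ℝ ν y = (0 : ℝ) := by
      rw [hy, inner_sub_right, hp, real_inner_smul_right, hνν, mul_one, sub_self]
    have hd : ∀ t : ℝ, HasDerivAt (fun t : ℝ => u (p + t • y)) 0 t := fun t => by
      refine (hasDerivAt_line (differentiable_of_two hu.smooth) p y t).congr_deriv ?_
      rw [hDu, hνy, mul_zero]
    have := is_const_of_deriv_eq_zero (fun t => (hd t).differentiableAt) (fun t => (hd t).deriv) 1 0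
    simpa [y, g, p] using this
  have hg : ∀ t, HasDerivAt g (d t) t := fun t => by
    simpa [g, d] using hasDerivAt_line (differentiable_of_two hu.smooth) 0 ν t
  refine ⟨ν, g, d, hνn, heq, hg, fun t => ?_, fun t => ?_, fun t => hu.bound _, fun x => ?_⟩
  · have h := hasDerivAt_line_fderiv hu.smooth 0 ν ν t
    simp only [zero_add] at h
    refine h.congr_deriv (mul_left_cancel₀ (hz (t • ν)) ?_)
    have hν2 : hess u (t • ν) ν ν = ∑ i, inner ℝ ν (bas i) * hess u (t • ν) ν (bas i) := by
      conv_lhs => arg 2; rw [← (EuclideanSpace.basisFun (Fin n) ℝ).sum_repr' ν]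
      simp [map_sum, real_inner_comm]
    rw [hν2, Finset.mul_sum]
    conv_rhs => rw [gdot, Finset.sum_mul]
    refine Finset.sum_congr rfl fun i _ => ?_
    rw [← mul_assoc, mul_comm _ (inner ℝ ν (bas i)), mul_assoc,
      hess_formula hu hk (hz _), hDu _ (bas i), hDu _ ν, hνν]
    ring
  · rw [hdd]; exact Real.sqrt_pos.2 (hpos _)
  · have hc : HasFDerivAt u (d (inner ℝ ν x) • innerSL ℝ ν) x := by
      refine HasFDerivAt.congr_of_eventuallyEq ?_ (Eventually.of_forall heq)
      exact (hg (inner ℝ ν x)).comp_hasFDerivAt x (innerSL ℝ ν).hasFDerivAt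
    simp only [gdot, hc.fderiv, smul_apply, innerSL_apply_apply, smul_eq_mul]
    rw [Finset.sum_congr rfl fun i _ => show d (inner ℝ ν x) * inner ℝ ν (bas i) *
      (d (inner ℝ ν x) * inner ℝ ν (bas i)) = d (inner ℝ ν x) ^ 2 * inner ℝ ν (bas i) ^ 2 by ring,
      ← Finset.mul_sum, OrthonormalBasis.sum_sq_inner_left, hνn, one_pow, mul_one]

lemma tendsto_deriv_eq_zero {g d : ℝ → ℝ} (hd : ∀ t, HasDerivAt g (d t) t) {L l : ℝ}
    (hg : Tendsto g atTop (𝓝 L)) (hl : Tendsto d atTop (𝓝 l)) : l = 0 := by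
  have h : ∀ t, ∃ ξ, t < ξ ∧ d ξ = g (t + 1) - g t := by
    intro t
    obtain ⟨ξ, hξ, he⟩ := exists_hasDerivAt_eq_slope g d (lt_add_one t)
      (fun s _ => (hd s).continuousAt.continuousWithinAt) fun s _ => hd s
    exact ⟨ξ, hξ.1, by simpa using he⟩
  choose ξ hξ he using h
  have h1 : Tendsto (fun t => d (ξ t)) atTop (𝓝 l) :=
    hl.comp (tendsto_atTop_mono (fun t => (hξ t).le) tendsto_id)
  have h2 : Tendsto (fun t => g (t + 1) - g t) atTop (𝓝 (L - L)) :=
    (hg.comp (tendsto_atTop_add_const_right _ 1 tendsto_id)).sub hg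
  rw [sub_self] at h2
  exact tendsto_nhds_unique (h1.congr he) h2

/-- The limit of a profile at infinity. -/
lemma profile_limit {g d : ℝ → ℝ} (hg : ∀ t, HasDerivAt g (d t) t)
    (hd : ∀ t, HasDerivAt d (nlf (g t)) t) (hp : ∀ t, 0 < d t) (hb : ∀ t, |g t| ≤ 1) {c : ℝ}
    (hc : ∀ t, d t ^ 2 / 2 - pot (g t) = c) :
    ∃ L, nlf L = 0 ∧ pot L = -c ∧ (∀ t, g t < L) ∧ |L| ≤ 1 := by
  have hmono : StrictMono g := strictMono_of_deriv_pos fun t => by rw [(hg t).deriv]; exact hp t
  have hbd : BddAbove (Set.range g) := ⟨1, fun y ⟨t, ht⟩ => ht ▸ (abs_le.1 (hb t)).2⟩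
  set L := ⨆ t, g t
  have hL : Tendsto g atTop (𝓝 L) := tendsto_atTop_ciSup hmono.monotone hbd
  have hcont : Continuous pot := by unfold pot; fun_prop
  have hdl : Tendsto d atTop (𝓝 (Real.sqrt (2 * (c + pot L)))) := by
    refine Tendsto.congr (fun t => ?_)
      ((((hcont.tendsto L).comp hL).const_add c).const_mul 2).sqrt
    rw [Real.sqrt_eq_iff_eq_sq (by have := sq_nonneg (d t); have := hc t; simp only [Function.comp_apply]; linarith) (hp t).le]
    have := hc t
    simp only [Function.comp_apply]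
    linarith
  have h0 := tendsto_deriv_eq_zero hg hL hdl
  rw [Real.sqrt_eq_zero'] at h0
  have hge : 0 ≤ c + pot L := by
    refine ge_of_tendsto (((hcont.tendsto L).comp hL).const_add c)
      (Eventually.of_forall fun t => ?_)
    simp only [Function.comp_apply]
    linarith [sq_nonneg (d t), hc t]
  have hf : Tendsto (fun t => nlf (g t)) atTop (𝓝 (nlf L)) := (hL.pow 3).sub hL
  refine ⟨L, tendsto_deriv_eq_zero hd hdl hf, by linarith, fun t => ?_,
    le_of_tendsto hL.abs (Eventually.of_forall hb)⟩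
  exact (hmono (lt_add_one t)).trans_le (le_ciSup hbd (t + 1))

/-- The first integral of a profile. -/
lemma Profile.first_integral {u : Spc n → ℝ} {ν : Spc n} {g d : ℝ → ℝ} (h : Profile u ν g d)
    (t : ℝ) : d t ^ 2 / 2 = pot (g t) := by
  set c := d 0 ^ 2 / 2 - pot (g 0)
  have hc : ∀ t, d t ^ 2 / 2 - pot (g t) = c := by
    have hd : ∀ t, HasDerivAt (fun t => d t ^ 2 / 2 - pot (g t)) 0 t := fun t => by
      refine ((((h.deriv2 t).pow 2).div_const 2).sub
        ((pot_hasDerivAt (g t)).comp t (h.deriv t))).congr_deriv ?_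
      simp
      ring
    exact fun t => is_const_of_deriv_eq_zero (fun t => (hd t).differentiableAt)
      (fun t => (hd t).deriv) t 0
  obtain ⟨L, hL, hpL, hlt, -⟩ := profile_limit h.deriv h.deriv2 h.pos h.bound hc
  obtain ⟨M, hM, hpM, hlt', -⟩ := profile_limit (g := fun t => -g (-t)) (d := fun t => d (-t))
    (c := c)
    (fun t => by
      refine (((h.deriv (-t)).comp t (hasDerivAt_neg t)).neg).congr_deriv ?_
      simp)
    (fun t => by
      refine ((h.deriv2 (-t)).comp t (hasDerivAt_neg t)).congr_deriv ?_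
      simp [nlf]
      ring)
    (fun t => h.pos _) (fun t => by simpa using h.bound (-t))
    (fun t => by simpa [pot] using hc (-t))
  have h1 : -M < L := by
    have := hlt 0
    have := hlt' 0
    simp at this
    linarith
  have hc0 : c = 0 := by
    rcases nlf_zero_cases hL with rfl | rfl | rfl <;>
      rcases nlf_zero_cases hM with rfl | rfl | rfl <;> norm_num [pot] at * <;> linarith
  linarith [hc t]

end Vale.Agent.P134

end
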