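import Vale.Agent.P134.KeyLemma
import Vale.Agent.P134.OneDim

/-!
P134: the limit profile of a monotone almost periodic solution.
-/

noncomputable section

open Topology Filter Laplacian MeasureTheory Module

namespace Vale.Agent.P134

variable {n : ℕ}

/-- The upper limit profile. -/
def ubar (u : Spc n → ℝ) (e x : Spc n) : ℝ := ⨆ s : ℝ, u (x + s • e)

namespace Sol

variable {u : Spc n → ℝ} (hu : Sol u) {e : Spc n} (he : ∀ x, 0 < fderiv ℝ u x e)
include hu

include he in
lemma line_strictMono (x : Spc n) : StrictMono fun s : ℝ => u (x + s • e) :=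
  strictMono_of_deriv_pos fun s => by
    rw [(hasDerivAt_line (differentiable_of_two hu.smooth) x e s).deriv]
    exact he _

lemma line_bdd (e x : Spc n) : BddAbove (Set.range fun s : ℝ => u (x + s • e)) :=
  ⟨1, fun _ ⟨_, hs⟩ => hs ▸ (abs_le.1 (hu.bound _)).2⟩

include he

lemma tendsto_ubar (x : Spc n) : Tendsto (fun s : ℝ => u (x + s • e)) atTop (𝓝 (ubar u e x)) :=
  tendsto_atTop_ciSup (hu.line_strictMono he x).monotone (hu.line_bdd e x)

lemma tendsto_ubar_nat (x : Spc n) :
    Tendsto (fun m : ℕ => u (x + (m : ℝ) • e)) atTop (𝓝 (ubar u e x)) :=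
  (hu.tendsto_ubar he x).comp tendsto_natCast_atTop_atTop

lemma ubar_invariant (x : Spc n) (t : ℝ) : ubar u e (x + t • e) = ubar u e x := by
  refine tendsto_nhds_unique (hu.tendsto_ubar he (x + t • e)) ?_
  refine ((hu.tendsto_ubar he x).comp (tendsto_atTop_add_const_left _ t tendsto_id)).congr
    fun s => ?_
  simp [add_smul, add_assoc]

lemma lt_ubar (x : Spc n) : u x < ubar u e x := by
  have h := hu.line_strictMono he x (zero_lt_one' ℝ)
  simp only [zero_smul, add_zero] at h
  exact h.trans_le (le_ciSup (hu.line_bdd e x) 1)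

lemma ubar_close {τ : Spc n} {ε : ℝ} (h : ∀ x, |u (x + τ) - u x| ≤ ε) (x : Spc n) :
    |ubar u e (x + τ) - ubar u e x| ≤ ε :=
  le_of_tendsto ((hu.tendsto_ubar he (x + τ)).sub (hu.tendsto_ubar he x)).abs
    (Eventually.of_forall fun s => by simpa [add_right_comm] using h (x + s • e))

lemma limit_sol : Sol (ubar u e) ∧ Stable (ubar u e) ∧
    ∀ x v, Tendsto (fun m : ℕ => fderiv ℝ u (x + (m : ℝ) • e) v) atTop
      (𝓝 (fderiv ℝ (ubar u e) x v)) := by
  have hf : ∀ m : ℕ, Sol fun y => u (y + (m : ℝ) • e) := fun m => hu.translate _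
  obtain ⟨h1, h2, -⟩ := Sol.limit hf (hu.tendsto_ubar_nat he)
  refine ⟨h1, stable_limit hf (fun m => (hf m).stable_of_mono (e := e) fun x => ?_)
    (hu.tendsto_ubar_nat he), fun x v => ?_⟩
  · rw [fderiv_translate]; exact he _
  · simpa [fderiv_translate] using h2 x v

/-- The direction of monotonicity is not a direction of almost periodicity. -/
lemma not_mem_of_ap {W : Submodule ℝ (Spc n)} (hap : AP W u) : e ∉ W := by
  intro hmem
  set ε := (ubar u e 0 - u 0) / 3 with hε
  have hε0 : 0 < ε := by linarith [hu.lt_ubar he 0]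
  obtain ⟨L, hL⟩ := hap ε hε0
  choose τ hτW hτ hτu using fun m : ℕ => hL ((m : ℝ) • e) (W.smul_mem _ hmem)
  obtain ⟨a, -, φ, hφ, hlim⟩ := (isCompact_closedBall (0 : Spc n) L).tendsto_subseq
    (x := fun m => τ m - (m : ℝ) • e) fun m => mem_closedBall_zero_iff.2 (hτ m)
  set ū := ubar u e
  have hū := (hu.limit_sol he).1
  have hq : Tendsto (fun m => gradC n * ‖(τ (φ m) - (φ m : ℝ) • e) - a‖) atTop (𝓝 0) := by
    simpa using ((hlim.sub_const a).norm.const_mul (gradC n))
  have h1 : Tendsto (fun m => u (τ (φ m))) atTop (𝓝 (ū a)) := by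
    have h2 := (hu.tendsto_ubar_nat he a).comp hφ.tendsto_atTop
    have h3 : Tendsto (fun m => u (τ (φ m)) - u (a + (φ m : ℝ) • e)) atTop (𝓝 0) :=
      squeeze_zero_norm (fun m => by
        refine (hu.lip (a + (φ m : ℝ) • e) (τ (φ m))).trans (le_of_eq ?_)
        congr 2
        abel) hq
    simpa using h3.add h2
  have h2 : Tendsto (fun m => ū (τ (φ m))) atTop (𝓝 (ū a)) := by
    have h3 : Tendsto (fun m => ū (τ (φ m)) - ū a) atTop (𝓝 0) :=
      squeeze_zero_norm (fun m => by
        have := hu.ubar_invariant he (τ (φ m) - (φ m : ℝ) • e) (φ m)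
        rw [sub_add_cancel] at this
        simp only [ū, Real.norm_eq_abs]
        rw [this]
        exact hū.lip _ _) hq
    simpa using h3.add_const (ū a)
  have h3 : |ū a - u 0| ≤ ε :=
    le_of_tendsto (h1.sub_const (u 0)).abs (Eventually.of_forall fun m => by
      simpa using hτu (φ m) 0)
  have h4 : |ū a - ū 0| ≤ ε :=
    le_of_tendsto (h2.sub_const (ū 0)).abs (Eventually.of_forall fun m => by
      simpa using hu.ubar_close he (hτu (φ m)) 0)
  rw [abs_le] at h3 h4
  linarith

lemma ubar_ap {W : Submodule ℝ (Spc n)} (hap : AP W u) : AP (W ⊔ ℝ ∙ e) (ubar u e) := by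
  intro ε hε
  obtain ⟨L, hL⟩ := hap ε hε
  refine ⟨L, fun p hp => ?_⟩
  obtain ⟨w, hw, z, hz, rfl⟩ := Submodule.mem_sup.1 hp
  obtain ⟨t, rfl⟩ := Submodule.mem_span_singleton.1 hz
  obtain ⟨τ, hτ, h1, h2⟩ := hL w hw
  refine ⟨τ + t • e, Submodule.add_mem_sup hτ hz, by simpa using h1, fun x => ?_⟩
  rw [← add_assoc, hu.ubar_invariant he]
  exact hu.ubar_close he h2 x

end Sol

/-- The zero solution is unstable. -/
lemma zero_unstable : ¬ Stable (fun _ : Spc n => (0 : ℝ)) := by
  intro h
  set A := ∫ z : Spc n, tent 1 z ^ 2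
  set B := ∫ z : Spc n, tent 1 z ^ 4
  have hB : 0 < B := Continuous.integral_pos_of_hasCompactSupport_nonneg_nonzero
    ((continuous_tent 1).pow 4) ((hasCompactSupport_tent zero_le_one).comp_left
      (g := fun t : ℝ => t ^ 4) (by simp))
    (fun z => pow_nonneg (tent_nonneg 1 z) 4) (x := 0) (by simp [tent])
  have hA : 0 ≤ A := integral_nonneg fun z => sq_nonneg _
  set R := 16 * A / B + 1 with hR
  have hR1 : 1 ≤ R := le_add_of_nonneg_left (by positivity)
  have hR0 : 0 < R := by linarith
  have h0 := h (bump R) (bump_contDiff R) (hasCompactSupport_bump hR0.le)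
  have i1 : Integrable fun y : Spc n => tent R y ^ 2 := by
    simp only [sq]
    exact integrable_cs ((continuous_tent R).mul (continuous_tent R))
      (hasCompactSupport_tent hR0.le).mul_left
  have i2 : Integrable fun y : Spc n => tent R y ^ 4 :=
    integrable_cs ((continuous_tent R).pow 4) ((hasCompactSupport_tent hR0.le).comp_left
      (g := fun t : ℝ => t ^ 4) (by simp))
  have hi : Integrable (dens (fun _ : Spc n => (0 : ℝ)) (bump R)) :=
    (integrable_cs (continuous_gdot (bump_contDiff R) (bump_contDiff R))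
      (hasCompactSupport_gdot _ (hasCompactSupport_bump hR0.le))).add
      ((i2.const_mul (3 * (0 : ℝ) ^ 2 - 1)).congr (Eventually.of_forall fun y => by
        simp only [bump]; ring))
  have hle : ∫ y, dens (fun _ : Spc n => (0 : ℝ)) (bump R) y ≤
      ∫ y : Spc n, 16 * R ^ 2 * tent R y ^ 2 - tent R y ^ 4 := by
    refine integral_mono hi ((i1.const_mul _).sub i2) fun y => ?_
    have e : gdot (bump R) (bump R) y = 16 * tent R y ^ 2 * ‖y‖ ^ 2 := by
      rw [EuclideanSpace.norm_sq_eq, Finset.mul_sum]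
      refine Finset.sum_congr rfl fun i _ => ?_
      rw [(bump_hasFDerivAt R y).fderiv]
      simp [bas, EuclideanSpace.inner_single_right]
      ring
    have e2 : tent R y ^ 2 * ‖y‖ ^ 2 ≤ tent R y ^ 2 * R ^ 2 := by
      rcases eq_or_ne (tent R y) 0 with h0 | h0
      · simp [h0]
      · exact mul_le_mul_of_nonneg_left (pow_le_pow_left₀ (norm_nonneg y)
          (norm_lt_of_tent hR0.le h0).le 2) (sq_nonneg _)
    simp only [dens, e, bump]
    linarith [show (tent R y ^ 2) ^ 2 = tent R y ^ 4 by ring]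
  rw [integral_sub (i1.const_mul _) i2, integral_const_mul, integral_scale (n := n) hR0 (fun y => tent R y ^ 2),
    integral_scale (n := n) hR0 fun y => tent R y ^ 4] at hle
  simp only [tent_scale hR0.le, mul_pow, integral_const_mul] at hle
  have h2 : 16 * A < R ^ 2 * B := by
    have : R * B = 16 * A + B := by rw [hR]; field_simp
    nlinarith
  have hp : 0 < R ^ n * R ^ 6 := by positivity
  nlinarith [mul_lt_mul_of_pos_left h2 hp]

lemma pow_le_two_mul {R : ℝ} (hR : 1 ≤ R) {m : ℕ} (hm : m ≤ 2) : (2 * R) ^ m ≤ 4 * R ^ 2 := by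
  refine (pow_le_pow_right₀ (by linarith) hm).trans (le_of_eq ?_)
  ring

/-- Along a subspace whose orthogonal complement is at most two-dimensional the energy bound is
trivial. -/
lemma energy_of_small_codim {W : Submodule ℝ (Spc n)} {u : Spc n → ℝ} (hu : Sol u)
    (hW : finrank ℝ Wᗮ ≤ 2) : Energy W u := by
  refine ⟨4 * (n * gradC n ^ 2) * 2 ^ finrank ℝ W, by positivity, fun R R' hR hR' => ?_⟩
  refine (setIntegral_box_le_const W (continuous_gdot hu.smooth_one hu.smooth_one)
    (by linarith) (by linarith) (M := n * gradC n ^ 2) (by positivity) fun x _ => ?_).trans ?_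
  · exact (gdot_self_le u x).trans (mul_le_mul_of_nonneg_left
      (pow_le_pow_left₀ (norm_nonneg _) (hu.grad_le x) 2) (Nat.cast_nonneg n))
  · rw [mul_pow 2 R']
    have h := mul_le_mul_of_nonneg_left (pow_le_two_mul hR hW)
      (show (0 : ℝ) ≤ n * gradC n ^ 2 * (2 ^ finrank ℝ W * R' ^ finrank ℝ W) by
        have : 0 ≤ R' := by linarith
        positivity)
    linarith

/-- The normal of a profile is orthogonal to every direction of almost periodicity. -/
lemma Profile.normal_mem {W : Submodule ℝ (Spc n)} {u : Spc n → ℝ} {ν : Spc n} {g d : ℝ → ℝ}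
    (h : Profile u ν g d) (hap : AP W u) : ν ∈ Wᗮ := by
  intro w hw
  by_contra hne
  rw [real_inner_comm] at hne
  have hmono : StrictMono g := strictMono_of_deriv_pos fun t => by
    rw [(h.deriv t).deriv]; exact h.pos t
  set ε := (g 1 - g 0) / 2 with hε
  have hε0 : 0 < ε := by linarith [hmono zero_lt_one]
  obtain ⟨L, hL⟩ := hap ε hε0
  set c := inner ℝ ν w
  obtain ⟨τ, -, hτ, hτu⟩ := hL (((L + 1) / c) • w) (W.smul_mem _ hw)
  have h1 : |inner ℝ ν (τ - ((L + 1) / c) • w)| ≤ L :=
    (abs_real_inner_le_norm _ _).trans (by rw [h.unit, one_mul]; exact hτ)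
  rw [inner_sub_right, real_inner_smul_right, div_mul_cancel₀ _ hne] at h1
  have h2 : 1 ≤ inner ℝ ν τ := by linarith [(abs_le.1 h1).1]
  have h3 := (abs_le.1 (hτu 0)).2
  rw [zero_add, h.eq, h.eq, inner_zero_right] at h3
  linarith [hmono.monotone h2]

/-- Boxes carry little energy of a limit profile. -/
lemma profile_energy {W W' : Submodule ℝ (Spc n)} (hWW' : W ≤ W') (hW : finrank ℝ Wᗮ ≤ 3)
    {u : Spc n → ℝ} (hu : Sol u) (hs : Stable u) (hk : KeyProp u) (hap : AP W' u) :
    ∃ C : ℝ, 0 ≤ C ∧ ∀ R R' : ℝ, 1 ≤ R → R ≤ R' →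
      ∫ x in box W R R', gdot u u x / 2 + pot (u x) ≤ C * R ^ 2 * R' ^ finrank ℝ W := by
  set k := finrank ℝ W
  rcases const_or_profile hu hk with ⟨a, ha, hua⟩ | ⟨ν, g, d, hp⟩
  · refine ⟨0, le_rfl, fun R R' _ _ => le_of_eq ?_⟩
    have he : u = fun _ => a := funext hua
    have ha0 : a ≠ 0 := fun h => zero_unstable (n := n) (by rw [he, h] at hs; exact hs)
    have h1 : pot a = 0 := by
      rcases nlf_zero_cases ha with rfl | rfl | rfl
      · exact absurd rfl ha0
      all_goals norm_num [pot]
    simp [he, gdot, h1]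
  · set G := (n + 1 : ℝ) * gradC n + 1
    have hG : 0 ≤ G := by have := gradC_nonneg n; positivity
    have hdG : ∀ t, d t ≤ G := by
      intro t
      have h1 := hp.gdot_eq (t • ν)
      rw [real_inner_smul_right, real_inner_self_eq_norm_sq, hp.unit, one_pow, mul_one] at h1
      have h2 : d t ^ 2 ≤ n * gradC n ^ 2 := h1 ▸ (gdot_self_le u _).trans
        (mul_le_mul_of_nonneg_left (pow_le_pow_left₀ (norm_nonneg _) (hu.grad_le _) 2)
          (Nat.cast_nonneg n))
      refine (pow_le_pow_iff_left₀ (hp.pos t).le hG two_ne_zero).1 (h2.trans ?_)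
      have := gradC_nonneg n
      have : (0 : ℝ) ≤ n := Nat.cast_nonneg n
      nlinarith
    have hν : ν ∈ Wᗮ := Submodule.orthogonal_le hWW' (hp.normal_mem hap)
    set m := finrank ℝ Wᗮ
    have hν0 : (⟨ν, hν⟩ : Wᗮ) ≠ 0 := fun h => by
      have := hp.unit
      simp [Submodule.mk_eq_zero] at h
      simp [h] at this
    have hm : 0 < m := Module.finrank_pos_iff_exists_ne_zero.2 ⟨_, hν0⟩
    obtain ⟨c, hc⟩ := Orthonormal.exists_orthonormalBasis_extension_of_card_eq
      (𝕜 := ℝ) (E := Wᗮ) (ι := Fin m) (by simp [m]) (v := fun _ => ⟨ν, hν⟩) (s := {⟨0, hm⟩})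
      ⟨fun i => by simpa [Set.domRestrict] using hp.unit,
        fun i j hij => absurd (Subsingleton.elim i j) hij⟩
    have hc0 : (c ⟨0, hm⟩ : Spc n) = ν := by rw [hc _ rfl]
    have hcont : Continuous d := continuous_iff_continuousAt.2 fun t => (hp.deriv2 t).continuousAt
    refine ⟨2 * G * 4 * 2 ^ k, by positivity, fun R R' hR hR' => ?_⟩
    have hR0 : 0 ≤ R := by linarith
    refine (setIntegral_box_le W c (F := fun x => gdot u u x / 2 + pot (u x))
      (((continuous_gdot hu.smooth_one hu.smooth_one).div_const 2).add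
        ((((hu.smooth.continuous.pow 2).sub continuous_const).pow 2).div_const 4))
      (by linarith) (fun j t => if j = ⟨0, hm⟩ then d t ^ 2 else 1)
      (fun j => by split_ifs <;> fun_prop) (fun j t => by split_ifs <;> positivity)
      fun x _ => le_of_eq ?_).trans ?_
    · rw [Finset.prod_ite_eq' Finset.univ ⟨0, hm⟩ fun j => d (inner ℝ (c j : Spc n) x) ^ 2,
        if_pos (Finset.mem_univ _), hc0, hp.gdot_eq, hp.eq x, ← hp.first_integral]
      ring
    · rw [← Finset.mul_prod_erase _ _ (Finset.mem_univ (⟨0, hm⟩ : Fin m))]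
      simp only [↓reduceIte]
      rw [Finset.prod_congr rfl fun j hj => show
        (∫ t in Set.Icc (-R) R, (if j = ⟨0, hm⟩ then d t ^ 2 else 1)) = 2 * R by
          simp [Finset.ne_of_mem_erase hj]
          rw [max_eq_left (by linarith)]
          ring, Finset.prod_const, Finset.card_erase_of_mem (Finset.mem_univ _),
        Finset.card_univ, Fintype.card_fin]
      have hint : ∫ t in Set.Icc (-R) R, d t ^ 2 ≤ 2 * G := by
        have e : ∫ t in Set.Icc (-R) R, d t = g R - g (-R) := by
          rw [integral_Icc_eq_integral_Ioc, ← intervalIntegral.integral_of_le (by linarith)]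
          exact intervalIntegral.integral_eq_sub_of_hasDerivAt (fun t _ => hp.deriv t)
            (hcont.intervalIntegrable _ _)
        refine (setIntegral_mono_on (g := fun t => G * d t)
          (hcont.pow 2).integrableOn_Icc (continuous_const.mul hcont).integrableOn_Icc
          measurableSet_Icc fun t _ => by rw [sq]; exact mul_le_mul_of_nonneg_right (hdG t) (hp.pos t).le).trans ?_
        rw [integral_const_mul, e]
        nlinarith [(abs_le.1 (hp.bound R)).2, (abs_le.1 (hp.bound (-R))).1]
      have hpos : 0 ≤ R' := by linarith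
      rw [mul_pow 2 R']
      refine (mul_le_mul_of_nonneg_left (mul_le_mul hint (pow_le_two_mul hR (by omega))
        (by positivity) (by positivity)) (by positivity)).trans (le_of_eq ?_)
      ring

end Vale.Agent.P134

end
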