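import Vale.Agent.P134.Bump

/-!
P134: the key lemma. For a stable solution which is almost periodic along `W` and has energy
growing at most quadratically in the directions orthogonal to `W`, a directional derivative has
vanishing differential at each of its zeros.
-/

noncomputable section

open Topology Filter Laplacian MeasureTheory Module

namespace Vale.Agent.P134

variable {n : ℕ}

lemma abs_log_deriv (K : Submodule ℝ (Spc n)) (c : ℝ) (x w : Spc n) :
    |fderiv ℝ (fun y => c * Real.log (1 + ‖K.starProjection y‖ ^ 2)) x w| ≤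
      |c| * (2 * ‖K.starProjection x‖ / (1 + ‖K.starProjection x‖ ^ 2)) * ‖w‖ := by
  have h : HasFDerivAt (fun y => c * Real.log (1 + ‖K.starProjection y‖ ^ 2))
      (c • (1 + ‖K.starProjection x‖ ^ 2)⁻¹ • fderiv ℝ (fun y => ‖K.starProjection y‖ ^ 2) x) x :=
    ((((projSq_contDiff K).differentiable one_ne_zero x).hasFDerivAt.const_add 1).log
      (by positivity)).const_mul c
  rw [h.fderiv]
  simp only [smul_apply, smul_eq_mul, abs_mul, abs_inv]
  rw [abs_of_pos (show (0 : ℝ) < 1 + ‖K.starProjection x‖ ^ 2 by positivity), mul_assoc |c|]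
  refine mul_le_mul_of_nonneg_left ?_ (abs_nonneg c)
  rw [div_mul_eq_mul_div, ← div_eq_inv_mul, div_le_div_iff_of_pos_right (by positivity)]
  exact projSq_deriv K x w

/-- The pointwise cost of the cutoff. -/
lemma cut_cost {W : Submodule ℝ (Spc n)} (u : Spc n → ℝ) (e : Spc n) {B : ℝ} (hB0 : 0 ≤ B)
    (hB : ∀ s, |deriv chi s| ≤ B) {l R' : ℝ} (hl : 0 < l) (hR' : 0 < R') {x : Spc n}
    (hx : ‖W.starProjection x‖ ≤ R') :
    gdot (cut (fun y => (2 * l)⁻¹ * Real.log (1 + ‖Wᗮ.starProjection y‖ ^ 2))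
        (fun y => (R' ^ 2)⁻¹ * ‖W.starProjection y‖ ^ 2))
      (cut (fun y => (2 * l)⁻¹ * Real.log (1 + ‖Wᗮ.starProjection y‖ ^ 2))
        (fun y => (R' ^ 2)⁻¹ * ‖W.starProjection y‖ ^ 2)) x * fderiv ℝ u x e ^ 2 ≤
      2 * n * B ^ 2 * ‖e‖ ^ 2 * ((l ^ 2)⁻¹ * (gdot u u x / (1 + ‖Wᗮ.starProjection x‖ ^ 2)) +
        4 * (R' ^ 2)⁻¹ * gdot u u x) := by
  set a := fun y => (2 * l)⁻¹ * Real.log (1 + ‖Wᗮ.starProjection y‖ ^ 2)
  set b := fun y => (R' ^ 2)⁻¹ * ‖W.starProjection y‖ ^ 2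
  have hac : ContDiff ℝ 1 a :=
    contDiff_const.mul ((contDiff_const.add (projSq_contDiff Wᗮ)).log fun y => by positivity)
  have hbc : ContDiff ℝ 1 b := contDiff_const.mul (projSq_contDiff W)
  set s := ‖Wᗮ.starProjection x‖
  have hs0 : 0 ≤ s := norm_nonneg _
  set α := (2 * l)⁻¹ * (2 * s / (1 + s ^ 2)) with hαdef
  set β := 2 / R' with hβdef
  have hα : ∀ w, |fderiv ℝ a x w| ≤ α * ‖w‖ := fun w => by
    have := abs_log_deriv Wᗮ (2 * l)⁻¹ x w
    rw [abs_of_pos (show 0 < (2 * l)⁻¹ by positivity)] at this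
    exact this
  have hβ : ∀ w, |fderiv ℝ b x w| ≤ β * ‖w‖ := fun w => by
    rw [fderiv_const_mul ((projSq_contDiff W).differentiable one_ne_zero x), smul_apply,
      smul_eq_mul, abs_mul, abs_of_pos (show 0 < (R' ^ 2)⁻¹ by positivity),
      inv_mul_le_iff₀ (by positivity)]
    refine (projSq_deriv W x w).trans ?_
    rw [show R' ^ 2 * (β * ‖w‖) = 2 * R' * ‖w‖ by rw [hβdef]; field_simp]
    gcongr
  have hd : gdot (cut a b) (cut a b) x ≤ n * (B * (α + β)) ^ 2 := by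
    refine (gdot_self_le _ x).trans (mul_le_mul_of_nonneg_left ?_ (Nat.cast_nonneg n))
    refine pow_le_pow_left₀ (norm_nonneg _) (ContinuousLinearMap.opNorm_le_bound _
      (by positivity) fun w => ?_) 2
    exact fderiv_cut_le hac hbc hB hα hβ w
  have hα2 : α ^ 2 ≤ (l ^ 2)⁻¹ * (1 / (1 + s ^ 2)) := by
    have : α = l⁻¹ * (s / (1 + s ^ 2)) := by rw [hαdef]; field_simp
    rw [this, mul_pow, inv_pow]
    refine mul_le_mul_of_nonneg_left ?_ (by positivity)
    rw [div_pow, div_le_div_iff₀ (by positivity) (by positivity)]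
    nlinarith
  have hαβ : (α + β) ^ 2 ≤ 2 * ((l ^ 2)⁻¹ * (1 / (1 + s ^ 2)) + 4 * (R' ^ 2)⁻¹) := by
    have : β ^ 2 = 4 * (R' ^ 2)⁻¹ := by rw [hβdef]; field_simp; norm_num
    nlinarith [sq_nonneg (α - β)]
  refine (mul_le_mul hd (sq_fderiv_le u x e) (sq_nonneg _) (by positivity)).trans ?_
  rw [mul_pow]
  calc (n : ℝ) * (B ^ 2 * (α + β) ^ 2) * (‖e‖ ^ 2 * gdot u u x)
      ≤ n * (B ^ 2 * (2 * ((l ^ 2)⁻¹ * (1 / (1 + s ^ 2)) + 4 * (R' ^ 2)⁻¹))) *
          (‖e‖ ^ 2 * gdot u u x) :=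
        mul_le_mul_of_nonneg_right (mul_le_mul_of_nonneg_left
          (mul_le_mul_of_nonneg_left hαβ (sq_nonneg B)) (Nat.cast_nonneg n))
          (mul_nonneg (sq_nonneg _) (gdot_self_nonneg u x))
    _ = _ := by ring

lemma cut_num {G l γ R R' : ℝ} {J M : ℕ} (hl : 0 < l) (hJ : 1 ≤ J) (hG : 0 ≤ G) (hR' : 0 < R')
    (hR : 0 ≤ R) (hMR : R ≤ M) (hMR' : (M : ℝ) ≤ R') (h1 : G * 8 / l ^ 2 / J ≤ γ / 2)
    (h2 : 4 * G * R / M ≤ γ / 2) :
    G * (4 * (J + 1) / (J * l) ^ 2) + G * (4 * (R / R') ^ 2) ≤ γ := by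
  have hJ0 : (1 : ℝ) ≤ J := by exact_mod_cast hJ
  have e1 : G * (4 * (J + 1) / (J * l) ^ 2) ≤ G * 8 / l ^ 2 / J := by
    rw [mul_div_assoc G 8, mul_div_assoc G]
    refine mul_le_mul_of_nonneg_left ?_ hG
    rw [div_div, div_le_div_iff₀ (by positivity) (by positivity)]
    nlinarith [mul_nonneg (sq_nonneg l) (mul_nonneg (by linarith : (0 : ℝ) ≤ J) (sub_nonneg.2 hJ0))]
  have e2 : G * (4 * (R / R') ^ 2) ≤ 4 * G * R / M := by
    rcases eq_or_lt_of_le hR with h | h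
    · subst h; simp
    rw [mul_div_assoc (4 * G), ← mul_assoc, mul_comm G 4]
    refine mul_le_mul_of_nonneg_left ?_ (by positivity)
    refine le_trans (pow_le_of_le_one (by positivity) ((div_le_one hR').2 (hMR.trans hMR'))
      two_ne_zero) ?_
    exact div_le_div_of_nonneg_left hR (by linarith) hMR'
  linarith

/-- Cutoffs with small cost per unit of volume along `W`. -/
lemma exists_cut {W : Submodule ℝ (Spc n)} {u : Spc n → ℝ} (hu : Sol u) (hE : Energy W u)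
    (e : Spc n) (ρ : ℝ) {γ D : ℝ} (hγ : 0 < γ) (hD : 1 ≤ D) :
    ∃ M : ℕ, 1 ≤ M ∧ ∃ ζ : Spc n → ℝ, ContDiff ℝ 1 ζ ∧ HasCompactSupport ζ ∧ (∀ x, 0 ≤ ζ x) ∧
      (∀ x, ζ x ≤ 1) ∧
      (∀ z, ‖Wᗮ.starProjection z‖ ≤ ρ → ‖W.starProjection z‖ ≤ D * M / 2 → ζ z = 1) ∧
      ∫ x, gdot ζ ζ x * fderiv ℝ u x e ^ 2 ≤ γ * (M : ℝ) ^ finrank ℝ W := by
  obtain ⟨C, hC0, hC⟩ := hE
  obtain ⟨B, hB⟩ := chi_deriv_bound
  have hB0 : 0 ≤ B := (abs_nonneg _).trans (hB 0)
  set k := finrank ℝ W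
  set c0 := 2 * n * B ^ 2 * ‖e‖ ^ 2 with hc0
  have hc00 : 0 ≤ c0 := by positivity
  have hl : 0 < Real.log 2 := Real.log_pos one_lt_two
  set G := c0 * C * D ^ k with hG
  have hG0 : 0 ≤ G := mul_nonneg (mul_nonneg hc00 hC0) (pow_nonneg (by linarith) _)
  obtain ⟨J, hJ1, hJ2, hJ3⟩ : ∃ J : ℕ, 1 ≤ J ∧ 1 + ρ ^ 2 ≤ (2 : ℝ) ^ J ∧
      G * 8 / Real.log 2 ^ 2 / J ≤ γ / 2 := by
    have h1 : ∀ᶠ J : ℕ in atTop, G * 8 / Real.log 2 ^ 2 / J ≤ γ / 2 :=
      ((tendsto_const_nhds.div_atTop tendsto_natCast_atTop_atTop)).eventually_le_const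
        (by positivity)
    exact ((eventually_ge_atTop 1).and (((tendsto_pow_atTop_atTop_of_one_lt one_lt_two).eventually_ge_atTop
      _).and h1)).exists
  set R := (2 : ℝ) ^ J with hR
  have hR1 : 1 ≤ R := one_le_pow₀ one_le_two
  have hJ0 : (0 : ℝ) < J := by exact_mod_cast hJ1
  have hlog : Real.log R = J * Real.log 2 := by rw [hR, Real.log_pow]
  have hlog0 : 0 < Real.log R := by rw [hlog]; positivity
  obtain ⟨M, hM⟩ := exists_nat_ge (max R (8 * G * R / γ))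
  have hMR : R ≤ M := (le_max_left _ _).trans hM
  have hM1 : 1 ≤ M := by exact_mod_cast hR1.trans hMR
  have hMG : 4 * G * R / M ≤ γ / 2 := by
    rw [div_le_iff₀ (by linarith)]
    have := (le_max_right R _).trans hM
    rw [div_le_iff₀ hγ] at this
    linarith
  set R' := D * M with hR'
  have hMR' : (M : ℝ) ≤ R' := by rw [hR']; nlinarith
  have hR'0 : 0 < R' := by linarith
  set a := fun y => (2 * Real.log R)⁻¹ * Real.log (1 + ‖Wᗮ.starProjection y‖ ^ 2) with ha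
  set b := fun y => (R' ^ 2)⁻¹ * ‖W.starProjection y‖ ^ 2 with hb
  have hac : ContDiff ℝ 1 a :=
    contDiff_const.mul ((contDiff_const.add (projSq_contDiff Wᗮ)).log fun y => by positivity)
  have hbc : ContDiff ℝ 1 b := contDiff_const.mul (projSq_contDiff W)
  set ζ := cut a b
  have hbox : ∀ x, ζ x ≠ 0 → x ∈ box W R R' := by
    intro x hx
    obtain ⟨h1, h2⟩ := cut_ne_zero hx
    constructor
    · simp only [ha] at h1
      rw [inv_mul_lt_iff₀ (by positivity), mul_one,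
        show 2 * Real.log R = Real.log (R ^ 2) from (Real.log_pow R 2).symm,
        Real.log_lt_log_iff (by positivity) (by positivity)] at h1
      exact (pow_le_pow_iff_left₀ (norm_nonneg _) (by linarith) two_ne_zero).1 (by linarith)
    · simp only [hb] at h2
      rw [inv_mul_lt_iff₀ (by positivity), mul_one] at h2
      exact (pow_le_pow_iff_left₀ (norm_nonneg _) hR'0.le two_ne_zero).1 h2.le
  refine ⟨M, hM1, ζ, cut_contDiff hac hbc, HasCompactSupport.intro (isCompact_box W R R')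
    fun x hx => by_contra fun h => hx (hbox x h), cut_nonneg a b, cut_le_one a b, ?_, ?_⟩
  · intro z hz1 hz2
    have h1 : a z ≤ 1 / 2 := by
      simp only [ha]
      rw [inv_mul_le_iff₀ (by positivity)]
      have : Real.log (1 + ‖Wᗮ.starProjection z‖ ^ 2) ≤ Real.log R :=
        Real.log_le_log (by positivity) (le_trans (by nlinarith [norm_nonneg (Wᗮ.starProjection z)]) hJ2)
      linarith
    have h2 : b z ≤ 1 / 2 := by
      simp only [hb]
      rw [inv_mul_le_iff₀ (by positivity)]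
      nlinarith [norm_nonneg (W.starProjection z), pow_le_pow_left₀ (norm_nonneg _) hz2 2]
    simp [ζ, cut, chi_one h1, chi_one h2]
  · have hv : Continuous fun x => fderiv ℝ u x e ^ 2 :=
      (continuous_fderiv_apply hu.smooth_one e).pow 2
    set E := gdot u u
    have hEc : Continuous E := continuous_gdot hu.smooth_one hu.smooth_one
    set s := fun x => ‖Wᗮ.starProjection x‖ with hs
    have hs1 : Continuous fun x => 1 + s x ^ 2 :=
      continuous_const.add (Wᗮ.starProjection.continuous.norm.pow 2)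
    have hq1 : Continuous fun x => E x / (1 + s x ^ 2) := hEc.div hs1 fun x => by positivity
    have hI1 : IntegrableOn (fun x => E x / (1 + s x ^ 2)) (box W R R') :=
      hq1.continuousOn.integrableOn_compact (isCompact_box W R R')
    have hI2 : IntegrableOn E (box W R R') :=
      hEc.continuousOn.integrableOn_compact (isCompact_box W R R')
    have hζc : Continuous fun x => gdot ζ ζ x * fderiv ℝ u x e ^ 2 :=
      (continuous_gdot (cut_contDiff hac hbc) (cut_contDiff hac hbc)).mul hv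
    have hpt : ∀ x ∈ box W R R', gdot ζ ζ x * fderiv ℝ u x e ^ 2 ≤
        c0 * ((Real.log R ^ 2)⁻¹ * (E x / (1 + s x ^ 2)) + 4 * (R' ^ 2)⁻¹ * E x) :=
      fun x hx => cut_cost u e hB0 hB hlog0 hR'0 hx.2
    rw [← setIntegral_eq_integral_of_forall_compl_eq_zero (s := box W R R') fun x hx => by
      have h : ζ x = 0 := by_contra fun h => hx (hbox x h)
      simp [gdot, ζ, fderiv_cut_eq_zero h]]
    refine (setIntegral_mono_on (hζc.continuousOn.integrableOn_compact (isCompact_box W R R'))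
      (Integrable.const_mul ((hI1.const_mul (Real.log R ^ 2)⁻¹).add (hI2.const_mul
        (4 * (R' ^ 2)⁻¹))) c0)
      (isClosed_box W R R').measurableSet hpt).trans ?_
    simp only [Pi.add_apply]
    rw [integral_const_mul, integral_add (hI1.const_mul _) (hI2.const_mul _), integral_const_mul,
      integral_const_mul]
    have w1 := weighted_energy hu.smooth_one hC J (R' := R') (hMR.trans hMR')
    have w2 := hC R R' hR1 (hMR.trans hMR')
    refine (mul_le_mul_of_nonneg_left (add_le_add (mul_le_mul_of_nonneg_left w1 (by positivity))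
      (mul_le_mul_of_nonneg_left w2 (by positivity))) hc00).trans ?_
    have hN : R' ^ k = D ^ k * (M : ℝ) ^ k := by rw [hR', mul_pow]
    rw [show c0 * ((Real.log R ^ 2)⁻¹ * (4 * C * (J + 1) * R' ^ k) +
        4 * (R' ^ 2)⁻¹ * (C * R ^ 2 * R' ^ k)) =
      (G * (4 * (J + 1) / Real.log R ^ 2) + G * (4 * (R / R') ^ 2)) * (M : ℝ) ^ k by
        rw [hN, hG]; field_simp]
    refine mul_le_mul_of_nonneg_right ?_ (by positivity)
    rw [hlog]
    exact cut_num hl hJ1 hG0 hR'0 (by linarith) hMR hMR' hJ3 hMG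

/-- The bilinear density. -/
def cross (u φ η : Spc n → ℝ) (x : Spc n) : ℝ := gdot φ η x + (3 * u x ^ 2 - 1) * (φ x * η x)

lemma dens_add_sum {ι : Type*} [Fintype ι] (u : Spc n → ℝ) {φ : Spc n → ℝ} {η : ι → Spc n → ℝ}
    (hφ : ContDiff ℝ 1 φ) (hη : ∀ j, ContDiff ℝ 1 (η j)) (x : Spc n)
    (hdis : ∀ i j, i ≠ j → η i x * η j x = 0 ∧
      ∀ w, fderiv ℝ (η i) x w * fderiv ℝ (η j) x w = 0) (t : ℝ) :
    dens u (fun y => φ y + t * ∑ j, η j y) x =
      dens u φ x + 2 * t * ∑ j, cross u φ (η j) x + t ^ 2 * ∑ j, dens u (η j) x := by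
  have hd : ∀ w, fderiv ℝ (fun y => φ y + t * ∑ j, η j y) x w =
      fderiv ℝ φ x w + t * ∑ j, fderiv ℝ (η j) x w := by
    intro w
    rw [((hφ.differentiable one_ne_zero x).hasFDerivAt.fun_add ((HasFDerivAt.fun_sum fun j _ =>
      ((hη j).differentiable one_ne_zero x).hasFDerivAt).const_mul t)).fderiv]
    simp
  have h1 : ∀ w, (∑ j, fderiv ℝ (η j) x w) ^ 2 = ∑ j, fderiv ℝ (η j) x w ^ 2 := fun w =>
    sq_sum_eq fun i j hij => (hdis i j hij).2 w
  have h2 : (∑ j, η j x) ^ 2 = ∑ j, η j x ^ 2 := sq_sum_eq fun i j hij => (hdis i j hij).1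
  have h3 : ∀ a : Fin n, (fderiv ℝ φ x (bas a) + t * ∑ j, fderiv ℝ (η j) x (bas a)) *
      (fderiv ℝ φ x (bas a) + t * ∑ j, fderiv ℝ (η j) x (bas a)) =
      fderiv ℝ φ x (bas a) * fderiv ℝ φ x (bas a) +
        2 * t * ∑ j, fderiv ℝ φ x (bas a) * fderiv ℝ (η j) x (bas a) +
        t ^ 2 * ∑ j, fderiv ℝ (η j) x (bas a) * fderiv ℝ (η j) x (bas a) := by
    intro a
    simp only [← sq, ← h1, ← Finset.mul_sum]
    ring
  have h4 : (φ x + t * ∑ j, η j x) ^ 2 =
      φ x ^ 2 + 2 * t * ∑ j, φ x * η j x + t ^ 2 * ∑ j, η j x ^ 2 := by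
    rw [← h2, ← Finset.mul_sum]; ring
  simp only [dens, cross, gdot, hd, h3, h4, Finset.sum_add_distrib, ← Finset.mul_sum]
  rw [Finset.sum_comm (f := fun (a : Fin n) (j : ι) => fderiv ℝ (η j) x (bas a) * _)]
  rw [Finset.mul_sum _ _ (φ x)]
  have h5 : ∑ a : Fin n, fderiv ℝ φ x (bas a) * ∑ j, fderiv ℝ (η j) x (bas a) =
      ∑ j, ∑ a, fderiv ℝ φ x (bas a) * fderiv ℝ (η j) x (bas a) := by
    simp only [Finset.mul_sum]; exact Finset.sum_comm
  rw [h5]
  simp only [← Finset.mul_sum]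
  ring

/-- Replacing a sign-changing derivative by its smoothed absolute value. -/
lemma dens_rabs {u v ζ : Spc n → ℝ} (hv : ContDiff ℝ 1 v) (hζ : ContDiff ℝ 1 ζ) {x : Spc n}
    (hu : |3 * u x ^ 2 - 1| ≤ 2) (hζ0 : 0 ≤ ζ x) {δ : ℝ} (hδ : 0 < δ) :
    dens u (fun y => ζ y * rabs δ (v y)) x ≤ gdot ζ ζ x * v x ^ 2 +
      (gdot v (fun y => ζ y ^ 2 * v y) x + (3 * u x ^ 2 - 1) * v x * (ζ x ^ 2 * v x)) +
      δ * (4 * ζ x * |gdot ζ v x| + 4 * |v x| * ζ x ^ 2) := by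
  have h1 : ∀ w, fderiv ℝ (fun y => ζ y * rabs δ (v y)) x w =
      rabs δ (v x) * fderiv ℝ ζ x w + ζ x * rabs' δ (v x) * fderiv ℝ v x w := by
    intro w
    have hh : HasFDerivAt (fun y => rabs δ (v y)) (rabs' δ (v x) • fderiv ℝ v x) x :=
      (rabs_hasDerivAt hδ (v x)).comp_hasFDerivAt x (hv.differentiable one_ne_zero x).hasFDerivAt
    rw [((hζ.differentiable one_ne_zero x).hasFDerivAt.fun_mul hh).fderiv]
    simp
    ring
  have h2 : ∀ w, fderiv ℝ (fun y => ζ y ^ 2 * v y) x w =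
      2 * ζ x * v x * fderiv ℝ ζ x w + ζ x ^ 2 * fderiv ℝ v x w := by
    intro w
    have hh : HasFDerivAt (fun y => ζ y ^ 2) ((2 * ζ x) • fderiv ℝ ζ x) x :=
      ((hζ.differentiable one_ne_zero x).hasFDerivAt.pow 2).congr_fderiv (by norm_num)
    rw [(hh.fun_mul (hv.differentiable one_ne_zero x).hasFDerivAt).fderiv]
    simp
    ring
  set r := rabs δ (v x)
  set r' := rabs' δ (v x)
  have e : dens u (fun y => ζ y * rabs δ (v y)) x = gdot ζ ζ x * v x ^ 2 +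
      (gdot v (fun y => ζ y ^ 2 * v y) x + (3 * u x ^ 2 - 1) * v x * (ζ x ^ 2 * v x)) +
      ((r ^ 2 - v x ^ 2) * gdot ζ ζ x + 2 * ζ x * (r * r' - v x) * gdot ζ v x +
        ζ x ^ 2 * (r' ^ 2 - 1) * gdot v v x +
        (3 * u x ^ 2 - 1) * ζ x ^ 2 * (r ^ 2 - v x ^ 2)) := by
    simp only [dens, gdot, h1, h2, Finset.mul_sum, Finset.sum_mul, ← Finset.sum_add_distrib,
      add_assoc]
    suffices ∑ i, (r * fderiv ℝ ζ x (bas i) + ζ x * r' * fderiv ℝ v x (bas i)) *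
        (r * fderiv ℝ ζ x (bas i) + ζ x * r' * fderiv ℝ v x (bas i)) =
      ∑ i, (fderiv ℝ ζ x (bas i) * fderiv ℝ ζ x (bas i) * v x ^ 2 +
        fderiv ℝ v x (bas i) * (2 * ζ x * v x * fderiv ℝ ζ x (bas i) +
          ζ x ^ 2 * fderiv ℝ v x (bas i)) +
        ((r ^ 2 - v x ^ 2) * (fderiv ℝ ζ x (bas i) * fderiv ℝ ζ x (bas i)) +
          2 * ζ x * (r * r' - v x) * (fderiv ℝ ζ x (bas i) * fderiv ℝ v x (bas i)) +
          ζ x ^ 2 * (r' ^ 2 - 1) * (fderiv ℝ v x (bas i) * fderiv ℝ v x (bas i)))) by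
      simp only [Finset.sum_add_distrib] at this ⊢
      linear_combination this
    exact Finset.sum_congr rfl fun i _ => by ring
  rw [e]
  have t1 : (r ^ 2 - v x ^ 2) * gdot ζ ζ x ≤ 0 :=
    mul_nonpos_of_nonpos_of_nonneg (by linarith [rabs_sq_le hδ (v x)]) (gdot_self_nonneg ζ x)
  have t2 : ζ x ^ 2 * (r' ^ 2 - 1) * gdot v v x ≤ 0 :=
    mul_nonpos_of_nonpos_of_nonneg (mul_nonpos_of_nonneg_of_nonpos (sq_nonneg _)
      (by nlinarith [abs_le.1 (rabs'_abs_le hδ (v x))])) (gdot_self_nonneg v x)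
  have t3 : 2 * ζ x * (r * r' - v x) * gdot ζ v x ≤ 2 * ζ x * (2 * δ) * |gdot ζ v x| := by
    refine (le_abs_self _).trans ?_
    rw [abs_mul, abs_mul, abs_of_nonneg (by positivity : 0 ≤ 2 * ζ x)]
    have := rabs_mul_rabs' hδ (v x)
    gcongr
  have t4 : (3 * u x ^ 2 - 1) * ζ x ^ 2 * (r ^ 2 - v x ^ 2) ≤
      2 * ζ x ^ 2 * (2 * δ * |v x|) := by
    refine (le_abs_self _).trans ?_
    rw [abs_mul, abs_mul, abs_of_nonneg (sq_nonneg (ζ x)), abs_of_nonpos
      (by linarith [rabs_sq_le hδ (v x)] : r ^ 2 - v x ^ 2 ≤ 0), neg_sub]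
    have := sq_sub_rabs_sq hδ (v x)
    have := sub_nonneg.2 (rabs_sq_le hδ (v x))
    gcongr
  linarith

end Vale.Agent.P134

end
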