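import Vale.Agent.P134.Key

/-!
P134: the key lemma.
-/

noncomputable section

open Topology Filter Laplacian MeasureTheory Module

namespace Vale.Agent.P134

variable {n : ℕ}

/-- Separated almost periods, as many as unit cells of `W` in a large box. -/
lemma exists_periods {W : Submodule ℝ (Spc n)} {u : Spc n → ℝ} (hap : AP W u) {ε : ℝ} (hε : 0 < ε)
    (x0 : Spc n) : ∃ D : ℝ, 1 ≤ D ∧ ∀ M : ℕ, 1 ≤ M → ∃ τ : (Fin (finrank ℝ W) → Fin M) → Spc n,
      (∀ j x, |u (x + τ j) - u x| ≤ ε) ∧ (∀ i j, i ≠ j → 2 < ‖τ i - τ j‖) ∧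
      ∀ j y, ‖y‖ ≤ 1 → ‖Wᗮ.starProjection (x0 + τ j + y)‖ ≤ ‖x0‖ + 1 ∧
        ‖W.starProjection (x0 + τ j + y)‖ ≤ D * M / 2 := by
  obtain ⟨L0, hL0⟩ := hap ε hε
  set L := max L0 0
  have hL : 0 ≤ L := le_max_right _ _
  set k := finrank ℝ W
  set S := 2 * L + 3 with hS
  have hSk : 0 ≤ S * (k : ℝ) := by positivity
  refine ⟨2 * (S * k + L + ‖x0‖ + 2), by have := norm_nonneg x0; linarith, fun M hM => ?_⟩
  set bW := stdOrthonormalBasis ℝ W
  set p : (Fin k → Fin M) → W := fun j => S • ∑ i, ((j i : ℕ) : ℝ) • bW i with hp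
  have hper : ∀ j : Fin k → Fin M, ∃ τ ∈ W, ‖τ - (p j : Spc n)‖ ≤ L ∧
      ∀ x, |u (x + τ) - u x| ≤ ε := fun j => by
    obtain ⟨τ, h1, h2, h3⟩ := hL0 (p j) (p j).2
    exact ⟨τ, h1, h2.trans (le_max_left _ _), h3⟩
  choose τ hτW hτp hτu using hper
  refine ⟨τ, hτu, fun i j hij => ?_, fun j y hy => ?_⟩
  · obtain ⟨l, hl⟩ := Function.ne_iff.1 hij
    have hrep : ∀ j, bW.repr (p j) l = S * ((j l : ℕ) : ℝ) := fun j => by
      simp [hp, Pi.single_apply]
    have h1 : |bW.repr (p i - p j) l| ≤ ‖p i - p j‖ := by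
      rw [← bW.repr.norm_map]
      simpa only [Real.norm_eq_abs] using PiLp.norm_apply_le (bW.repr (p i - p j)) l
    rw [map_sub, PiLp.sub_apply, hrep, hrep, ← mul_sub, abs_mul,
      abs_of_pos (by linarith : 0 < S)] at h1
    have h2 : (1 : ℝ) ≤ |((i l : ℕ) : ℝ) - ((j l : ℕ) : ℝ)| := by
      have hne : ((i l : ℕ) : ℤ) - (j l : ℕ) ≠ 0 := by
        rw [sub_ne_zero]; exact_mod_cast fun h => hl (Fin.ext h)
      exact_mod_cast Int.one_le_abs hne
    have h3 : S ≤ ‖(p i : Spc n) - p j‖ := le_trans (by nlinarith) h1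
    have h4 := norm_add₃_le (a := (p i : Spc n) - τ i) (b := τ i - τ j) (c := τ j - p j)
    rw [show (p i : Spc n) - τ i + (τ i - τ j) + (τ j - p j) = (p i : Spc n) - p j by abel,
      norm_sub_rev (p i : Spc n) (τ i)] at h4
    linarith [hτp i, hτp j]
  · constructor
    · rw [map_add, map_add, Submodule.starProjection_orthogonal_apply_eq_zero (hτW j), add_zero]
      exact (norm_add_le _ _).trans (add_le_add (Wᗮ.norm_starProjection_apply_le _)
        ((Wᗮ.norm_starProjection_apply_le _).trans hy))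
    · refine (W.norm_starProjection_apply_le _).trans ?_
      have hpn : ‖p j‖ ≤ S * k * M := by
        rw [hp, norm_smul, Real.norm_eq_abs, abs_of_pos (by linarith), mul_assoc S]
        refine mul_le_mul_of_nonneg_left ((norm_sum_le _ _).trans ?_) (by linarith)
        refine (Finset.sum_le_card_nsmul _ _ (M : ℝ) fun i _ => ?_).trans (le_of_eq (by simp [k]))
        rw [norm_smul, OrthonormalBasis.norm_eq_one, mul_one, Real.norm_natCast]
        exact_mod_cast (j i).isLt.le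
      rw [← Submodule.norm_coe] at hpn
      have h1 : ‖τ j‖ ≤ L + S * k * M := by
        linarith [norm_le_norm_add_norm_sub' (τ j) (p j : Spc n), hτp j]
      have h2 : (1 : ℝ) ≤ M := by exact_mod_cast hM
      have h3 : 2 * (S * k + L + ‖x0‖ + 2) * M / 2 = S * k * M + (L + ‖x0‖ + 2) * M := by ring
      rw [h3]
      nlinarith [norm_add₃_le (a := x0) (b := τ j) (c := y), norm_nonneg x0]

/-- Values of `v` and its differential near an almost period of a zero. -/
lemma near_zero {u : Spc n → ℝ} (hu : Sol u) {x0 e τ : Spc n} (hv : fderiv ℝ u x0 e = 0) {κ : ℝ}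
    (h1 : |fderiv ℝ u (x0 + τ) e - fderiv ℝ u x0 e| ≤ κ)
    (h2 : ∀ y, |hess u (x0 + τ) y e - hess u x0 y e| ≤ ‖y‖ * (n * κ)) {μ : ℝ} (hμ : μ ≤ 1)
    {y : Spc n} (hy : ‖y‖ ≤ μ) :
    |fderiv ℝ u (x0 + τ + y) e - hess u x0 y e| ≤ κ * (1 + n) + thirdC n * ‖e‖ * μ ^ 2 ∧
      |hess u (x0 + τ + y) y e - hess u x0 y e| ≤ κ * (1 + n) + thirdC n * ‖e‖ * μ ^ 2 := by
  have hκ : 0 ≤ κ := (abs_nonneg _).trans h1
  rw [hv, sub_zero] at h1
  have g2 := h2 y
  have hq : ‖y‖ * ((n : ℝ) * κ) ≤ κ * n := by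
    nlinarith [norm_nonneg y, mul_nonneg hκ (Nat.cast_nonneg (α := ℝ) n)]
  have hT := mul_nonneg (thirdC_nonneg n) (norm_nonneg e)
  have hsq : thirdC n * ‖e‖ * ‖y‖ ^ 2 ≤ thirdC n * ‖e‖ * μ ^ 2 :=
    mul_le_mul_of_nonneg_left (pow_le_pow_left₀ (norm_nonneg y) hy 2) hT
  have g3 := hu.taylor_deriv (x0 + τ) y e
  rw [show thirdC n * ‖y‖ ^ 2 * ‖e‖ = thirdC n * ‖e‖ * ‖y‖ ^ 2 by ring] at g3
  have g4 := (hess u (x0 + τ + y) - hess u (x0 + τ)).le_opNorm₂ y e
  rw [sub_apply, sub_apply, Real.norm_eq_abs] at g4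
  have g5 : ‖hess u (x0 + τ + y) - hess u (x0 + τ)‖ * ‖y‖ * ‖e‖ ≤ thirdC n * ‖e‖ * ‖y‖ ^ 2 :=
    (mul_le_mul_of_nonneg_right (mul_le_mul_of_nonneg_right (hu.hess_lip y (x0 + τ))
      (norm_nonneg y)) (norm_nonneg e)).trans (le_of_eq (by ring))
  rw [abs_le] at h1 g2 g3 g4
  constructor <;> rw [abs_le] <;> constructor <;> linarith [h1.1, h1.2, g2.1, g2.2, g3.1, g3.2, g4.1, g4.2]

/-- The interaction of a bump with the smoothed absolute value is negative. -/
lemma cross_bump_le {u ζ : Spc n → ℝ} (hu : Sol u) (hζ : ContDiff ℝ 1 ζ) (hζ1 : ∀ x, ζ x ≤ 1)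
    {e c : Spc n} (ℓ : Spc n →L[ℝ] ℝ) {μ δ E : ℝ} (hμ : 0 ≤ μ) (hμ1 : μ ≤ 1) (hδ : 0 < δ)
    (hone : ∀ y, ‖y‖ ≤ μ → ζ (c + y) = 1)
    (hnear : ∀ y, ‖y‖ ≤ μ → |fderiv ℝ u (c + y) e - ℓ y| ≤ E ∧
      |hess u (c + y) y e - ℓ y| ≤ E) (x : Spc n) :
    cross u (fun z => ζ z * rabs δ (fderiv ℝ u z e)) (fun z => bump μ (z - c)) x ≤
      -2 * (tent μ (x - c) * |ℓ (x - c)|) + (4 * δ + 14 * E) * tent μ (x - c) := by
  set y := x - c with hyd
  have hx : x = c + y := by simp [hyd]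
  rcases eq_or_ne (tent μ y) 0 with h0 | h0
  · simp only [cross, gdot, fderiv_bump_sub, ← hyd, h0]
    simp [bump, h0]
  have hy' := (norm_lt_of_tent hμ h0).le
  have hz : ζ x = 1 := hx ▸ hone y hy'
  have hdz : fderiv ℝ ζ x = 0 :=
    IsLocalMax.fderiv_eq_zero (Eventually.of_forall fun z => (hζ1 z).trans hz.ge)
  set v := fun z => fderiv ℝ u z e
  have hv1 : ContDiff ℝ 1 v := contDiff_deriv hu.smooth e
  have hdφ : ∀ w, fderiv ℝ (fun z => ζ z * rabs δ (v z)) x w =
      rabs' δ (v x) * fderiv ℝ v x w := by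
    intro w
    have hh : HasFDerivAt (fun z => rabs δ (v z)) (rabs' δ (v x) • fderiv ℝ v x) x :=
      (rabs_hasDerivAt hδ (v x)).comp_hasFDerivAt x (hv1.differentiable one_ne_zero x).hasFDerivAt
    rw [((hζ.differentiable one_ne_zero x).hasFDerivAt.fun_mul hh).fderiv]
    simp [hz, hdz]
  have hgd : gdot (fun z => ζ z * rabs δ (v z)) (fun z => bump μ (z - c)) x =
      -4 * tent μ y * (rabs' δ (v x) * hess u x y e) := by
    have hsum : fderiv ℝ v x y = ∑ i, inner ℝ y (bas i) * fderiv ℝ v x (bas i) := by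
      conv_lhs => rw [← (EuclideanSpace.basisFun (Fin n) ℝ).sum_repr y, map_sum]
      simp [bas, EuclideanSpace.inner_single_right]
    rw [← fderiv_deriv hu.smooth x e y, hsum, Finset.mul_sum, Finset.mul_sum]
    refine Finset.sum_congr rfl fun i _ => ?_
    simp only [fderiv_bump_sub, hdφ, ← hyd]
    ring
  obtain ⟨hva, hda⟩ := hnear y hy'
  rw [← hx] at hva hda
  have hr1 := rabs'_mul_self hδ (v x)
  have hr2 : |rabs' δ (v x) * (hess u x y e - v x)| ≤ 2 * E := by
    rw [abs_mul]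
    refine (mul_le_of_le_one_left (abs_nonneg _) (rabs'_abs_le hδ (v x))).trans ?_
    linarith [abs_sub_le (hess u x y e) (ℓ y) (v x), abs_sub_comm (v x) (ℓ y)]
  have hr3 : |ℓ y| - δ - 3 * E ≤ rabs' δ (v x) * hess u x y e := by
    linarith [(abs_le.1 hr2).1, abs_sub_abs_le_abs_sub (ℓ y) (v x), abs_sub_comm (v x) (ℓ y)]
  have hr4 : (3 * u x ^ 2 - 1) * (ζ x * rabs δ (v x) * bump μ y) ≤
      2 * ((|ℓ y| + E) * tent μ y ^ 2) := by
    refine (le_abs_self _).trans ?_
    rw [abs_mul]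
    refine mul_le_mul (hu.abs_pot_le x) ?_ (abs_nonneg _) two_pos.le
    rw [hz, one_mul, bump, abs_mul, abs_of_nonneg (rabs_nonneg hδ (v x)),
      abs_of_nonneg (sq_nonneg _)]
    refine mul_le_mul_of_nonneg_right ((rabs_le hδ (v x)).trans ?_) (sq_nonneg _)
    linarith [abs_sub_abs_le_abs_sub (v x) (ℓ y)]
  have ht0 := tent_nonneg μ y
  have ht1 : tent μ y ≤ 1 := (tent_le μ y).trans (by nlinarith)
  have hE0 : 0 ≤ E := (abs_nonneg _).trans hva
  rw [cross, hgd]
  simp only [← hyd]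
  nlinarith [mul_le_mul_of_nonneg_left hr3 ht0,
    mul_nonneg (mul_nonneg ht0 (sub_nonneg.2 ht1)) (add_nonneg (abs_nonneg (ℓ y)) hE0)]

lemma integrable_dens {u f : Spc n → ℝ} (hu : Sol u) (hf : ContDiff ℝ 1 f)
    (hfc : HasCompactSupport f) : Integrable (dens u f) :=
  (integrable_cs (continuous_gdot hf hf) (hasCompactSupport_gdot f hfc)).add
    (integrable_cs (((continuous_const.mul (hu.smooth.continuous.pow 2)).sub continuous_const).mul
      (hf.continuous.pow 2)) (hfc.comp_left (g := fun s : ℝ => s ^ 2) (by simp)).mul_left)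

/-- The second variation at the smoothed absolute value of a cut-off derivative. -/
lemma integral_dens_rabs {u ζ : Spc n → ℝ} (hu : Sol u) (hζ : ContDiff ℝ 1 ζ)
    (hζc : HasCompactSupport ζ) (hζ0 : ∀ x, 0 ≤ ζ x) (e : Spc n) :
    ∃ K : ℝ, 0 ≤ K ∧ ∀ δ, 0 < δ → ∫ x, dens u (fun y => ζ y * rabs δ (fderiv ℝ u y e)) x ≤
      (∫ x, gdot ζ ζ x * fderiv ℝ u x e ^ 2) + δ * K := by
  set v := fun x => fderiv ℝ u x e
  have hv1 : ContDiff ℝ 1 v := contDiff_deriv hu.smooth e
  set E2 := fun x => 4 * ζ x * |gdot ζ v x| + 4 * |v x| * ζ x ^ 2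
  have hE2i : Integrable E2 := by
    refine (integrable_cs ((continuous_const.mul hζ.continuous).mul (continuous_gdot hζ hv1).abs)
      (hζc.mul_left.mul_right)).add (integrable_cs ((continuous_const.mul hv1.continuous.abs).mul
        (hζ.continuous.pow 2)) ?_)
    exact (hζc.comp_left (g := fun s : ℝ => s ^ 2) (by simp)).mul_left
  refine ⟨∫ x, E2 x, integral_nonneg fun x => by have := hζ0 x; positivity, fun δ hδ => ?_⟩
  have hz2 : ContDiff ℝ 1 fun y => ζ y ^ 2 * v y := (hζ.pow 2).mul hv1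
  have hz2c : HasCompactSupport fun y => ζ y ^ 2 * v y :=
    (hζc.comp_left (g := fun s : ℝ => s ^ 2) (by simp)).mul_right
  have i1 : Integrable fun x => gdot ζ ζ x * v x ^ 2 :=
    integrable_cs ((continuous_gdot hζ hζ).mul (hv1.continuous.pow 2))
      (hasCompactSupport_gdot ζ hζc).mul_right
  have i2 : Integrable fun x =>
      gdot v (fun y => ζ y ^ 2 * v y) x + (3 * u x ^ 2 - 1) * v x * (ζ x ^ 2 * v x) :=
    (integrable_cs (continuous_gdot hv1 hz2) (hasCompactSupport_gdot v hz2c)).add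
      (integrable_cs ((((continuous_const.mul (hu.smooth.continuous.pow 2)).sub
        continuous_const).mul hv1.continuous).mul hz2.continuous) hz2c.mul_left)
  have i3 := hE2i.const_mul δ
  refine (integral_mono (integrable_dens hu (hζ.mul ((rabs_contDiff hδ).comp hv1)) hζc.mul_right)
    ((i1.add i2).add i3) fun x => dens_rabs hv1 hζ (hu.abs_pot_le x) (hζ0 x) hδ).trans
    (le_of_eq ?_)
  simp only [Pi.add_apply]
  rw [integral_add (i1.fun_add i2) i3, integral_add i1 i2, integral_const_mul,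
    hu.weak_deriv hz2 hz2c e, add_zero]

lemma bump_disjoint {μ : ℝ} (hμ : 0 ≤ μ) {a b : Spc n} (h : 2 * μ < ‖a - b‖) (x : Spc n) :
    bump μ (x - a) * bump μ (x - b) = 0 ∧ ∀ w,
      fderiv ℝ (fun z => bump μ (z - a)) x w * fderiv ℝ (fun z => bump μ (z - b)) x w = 0 := by
  have h' : tent μ (x - a) = 0 ∨ tent μ (x - b) = 0 := by
    by_contra hh
    push Not at hh
    have h3 := norm_sub_le (x - b) (x - a)
    rw [sub_sub_sub_cancel_left] at h3
    linarith [norm_lt_of_tent hμ hh.1, norm_lt_of_tent hμ hh.2]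
  simp only [fderiv_bump_sub]
  rcases h' with h' | h' <;> simp [bump, h']

lemma integral_dens_bump_le {u : Spc n → ℝ} (hu : Sol u) {μ : ℝ} (hμ : 0 ≤ μ) (c : Spc n) :
    ∫ x, dens u (fun z => bump μ (z - c)) x ≤
      ∫ z, gdot (bump μ) (bump (n := n) μ) z + 2 * bump μ z ^ 2 := by
  have hb2 : Integrable fun z : Spc n => bump μ z ^ 2 := by
    simp only [sq]
    exact integrable_cs ((bump_contDiff μ).continuous.mul (bump_contDiff μ).continuous)
      (hasCompactSupport_bump hμ).mul_left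
  have hi : Integrable fun z : Spc n => gdot (bump μ) (bump μ) z + 2 * bump μ z ^ 2 :=
    (integrable_cs (continuous_gdot (bump_contDiff μ) (bump_contDiff μ))
      (hasCompactSupport_gdot _ (hasCompactSupport_bump hμ))).add (hb2.const_mul 2)
  set f := fun z => bump μ (z - c) with hf
  have hf1 : ContDiff ℝ 1 f := (bump_contDiff μ).comp (contDiff_id.sub contDiff_const)
  have hfc : HasCompactSupport f :=
    (hasCompactSupport_bump hμ).comp_homeomorph (Homeomorph.subRight c)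
  set F := fun z : Spc n => gdot (bump μ) (bump μ) z + 2 * bump μ z ^ 2 with hF
  refine (integral_mono (g := fun x => F (x - c)) (integrable_dens hu hf1 hfc)
    (hi.comp_sub_right c) fun x => ?_).trans (le_of_eq (integral_sub_right_eq_self F c))
  show gdot f f x + _ ≤ gdot (bump μ) (bump μ) (x - c) + 2 * bump μ (x - c) ^ 2
  refine add_le_add (le_of_eq ?_) (mul_le_mul_of_nonneg_right
    ((le_abs_self _).trans (hu.abs_pot_le x)) (sq_nonneg _))
  rw [hf]
  simp only [gdot, fderiv_bump_sub]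
  exact Finset.sum_congr rfl fun i _ => by rw [(bump_hasFDerivAt μ (x - c)).fderiv]; rfl

/-- Adding weighted disjoint bumps. -/
lemma integral_dens_add_sum {ι : Type*} [Fintype ι] {u φ : Spc n → ℝ} (hu : Sol u)
    (hφ : ContDiff ℝ 1 φ) (hφc : HasCompactSupport φ) {μ : ℝ} (hμ : 0 ≤ μ) (c : ι → Spc n)
    (hsep : ∀ i j, i ≠ j → 2 * μ < ‖c i - c j‖) (t β : ℝ) (ht : 0 ≤ t)
    (hcr : ∀ j, ∫ x, cross u φ (fun z => bump μ (z - c j)) x ≤ -β) :
    ∃ g, ContDiff ℝ 1 g ∧ HasCompactSupport g ∧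
      ∫ x, dens u g x ≤ (∫ x, dens u φ x) + (-(2 * t * β) +
        t ^ 2 * ∫ z, gdot (bump μ) (bump (n := n) μ) z + 2 * bump μ z ^ 2) * Fintype.card ι := by
  set η := fun j x => bump μ (x - c j) with hη
  have hη1 : ∀ j, ContDiff ℝ 1 (η j) := fun j =>
    (bump_contDiff μ).comp (contDiff_id.sub contDiff_const)
  have hηc : ∀ j, HasCompactSupport (η j) := fun j =>
    (hasCompactSupport_bump hμ).comp_homeomorph (Homeomorph.subRight (c j))
  set g := fun y => φ y + t * ∑ j, η j y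
  have hg1 : ContDiff ℝ 1 g := hφ.add (contDiff_const.mul (ContDiff.sum fun j _ => hη1 j))
  have hgc : HasCompactSupport g := by
    refine hφc.add (HasCompactSupport.mul_left ?_)
    refine HasCompactSupport.intro (isCompact_iUnion fun j => (hηc j).isCompact) fun x hx => ?_
    simp only [Set.mem_iUnion, not_exists] at hx
    exact Finset.sum_eq_zero fun j _ => image_eq_zero_of_notMem_tsupport (hx j)
  refine ⟨g, hg1, hgc, ?_⟩
  have hcross : ∀ j, Integrable (cross u φ (η j)) := fun j =>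
    (integrable_cs (continuous_gdot hφ (hη1 j)) (hasCompactSupport_gdot φ (hηc j))).add
      (integrable_cs (((continuous_const.mul (hu.smooth.continuous.pow 2)).sub
        continuous_const).mul (hφ.continuous.mul (hη1 j).continuous)) (hηc j).mul_left.mul_left)
  have hdis : ∀ x i j, i ≠ j → η i x * η j x = 0 ∧
      ∀ w, fderiv ℝ (η i) x w * fderiv ℝ (η j) x w = 0 := fun x i j hij =>
    bump_disjoint hμ (hsep i j hij) x
  set K := ∫ z, gdot (bump μ) (bump (n := n) μ) z + 2 * bump μ z ^ 2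
  have hKj : ∀ j, ∫ x, dens u (η j) x ≤ K := fun j => integral_dens_bump_le hu hμ (c j)
  simp only [g, dens_add_sum u hφ hη1 _ (hdis _)]
  have hA := (integrable_finsetSum Finset.univ fun j _ => hcross j).const_mul (2 * t)
  have hB := (integrable_finsetSum Finset.univ fun j _ =>
    integrable_dens hu (hη1 j) (hηc j)).const_mul (t ^ 2)
  rw [integral_add ((integrable_dens hu hφ hφc).fun_add hA) hB,
    integral_add (integrable_dens hu hφ hφc) hA, integral_const_mul, integral_const_mul,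
    integral_finsetSum _ fun j _ => hcross j,
    integral_finsetSum _ fun j _ => integrable_dens hu (hη1 j) (hηc j)]
  have s1 := Finset.sum_le_card_nsmul Finset.univ _ (-β) fun j _ => hcr j
  have s2 := Finset.sum_le_card_nsmul Finset.univ _ K fun j _ => hKj j
  rw [nsmul_eq_mul, Finset.card_univ] at s1 s2
  nlinarith [mul_le_mul_of_nonneg_left s1 (by positivity : 0 ≤ 2 * t),
    mul_le_mul_of_nonneg_left s2 (sq_nonneg t)]

/-- The choice of the small parameters. -/
lemma exists_params {I J T : ℝ} (hI : 0 ≤ I) (hJ : 0 < J) (hT : 0 ≤ T) (n : ℕ) :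
    ∃ μ κ δ₀ : ℝ, 0 < μ ∧ μ ≤ 1 ∧ 0 < κ ∧ 0 < δ₀ ∧ ∀ δ ≤ δ₀,
      -2 * (μ ^ (n + 3) * J) + (4 * δ + 14 * (κ * (1 + n) + T * μ ^ 2)) * (μ ^ (n + 2) * I) ≤
        -(μ ^ (n + 3) * J / 2) := by
  set μ := min 1 (J / (28 * (T + 1) * (I + 1))) with hμ
  have hμ0 : 0 < μ := lt_min one_pos (by positivity)
  set κ := μ * J / (28 * (1 + n) * (I + 1)) with hκ
  set δ₀ := μ * J / (8 * (I + 1)) with hδ
  refine ⟨μ, κ, δ₀, hμ0, min_le_left _ _, by positivity, by positivity, fun δ h => ?_⟩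
  have h1 : 14 * (T * μ) * I ≤ J / 2 := by
    have h := min_le_right (1 : ℝ) (J / (28 * (T + 1) * (I + 1)))
    rw [← hμ, le_div_iff₀ (by positivity)] at h
    nlinarith [mul_nonneg hT hI, mul_nonneg hT hμ0.le, mul_nonneg hI hμ0.le]
  have h2 : 14 * (κ * (1 + n)) * I ≤ μ * J / 2 := by
    have : κ * (28 * (1 + n) * (I + 1)) = μ * J := by rw [hκ]; field_simp
    have : 0 ≤ κ * (1 + n) := by positivity
    nlinarith
  have h3 : 4 * δ * I ≤ μ * J / 2 := by
    have : δ₀ * (8 * (I + 1)) = μ * J := by rw [hδ]; field_simp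
    have : 0 ≤ δ₀ := by positivity
    nlinarith
  have h4 : 14 * (T * μ ^ 2) * I ≤ μ * J / 2 := by nlinarith
  have h5 : (4 * δ + 14 * (κ * (1 + n) + T * μ ^ 2)) * I ≤ 3 / 2 * (μ * J) := by linarith
  have h6 : μ ^ (n + 3) = μ ^ (n + 2) * μ := pow_succ μ (n + 2)
  rw [h6]
  nlinarith [mul_le_mul_of_nonneg_left h5 (by positivity : (0 : ℝ) ≤ μ ^ (n + 2))]

/-- The key lemma. -/
theorem key {W : Submodule ℝ (Spc n)} {u : Spc n → ℝ} (hu : Sol u) (hs : Stable u) (hap : AP W u)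
    (hE : Energy W u) (x0 e : Spc n) (hv : fderiv ℝ u x0 e = 0) (y0 : Spc n) :
    hess u x0 y0 e = 0 := by
  by_contra hy
  have hv1 : ContDiff ℝ 1 fun x => fderiv ℝ u x e := contDiff_deriv hu.smooth e
  set ℓ : Spc n →L[ℝ] ℝ := (ContinuousLinearMap.apply ℝ ℝ e).comp (hess u x0) with hℓ
  set I := ∫ z : Spc n, tent 1 z
  set J := ∫ z : Spc n, tent 1 z * |ℓ z| with hJ
  have hI : 0 ≤ I := integral_nonneg fun z => tent_nonneg 1 z
  have hJ0 : 0 < J := by
    have hy0 : y0 ≠ 0 := fun h => hy (by simp [h])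
    refine Continuous.integral_pos_of_hasCompactSupport_nonneg_nonzero
      ((continuous_tent 1).mul ℓ.continuous.abs) (hasCompactSupport_tent zero_le_one).mul_right
      (fun z => mul_nonneg (tent_nonneg 1 z) (abs_nonneg _))
      (x := (2 * ‖y0‖)⁻¹ • y0) (mul_ne_zero ?_ ?_)
    · have hn0 : 0 < ‖y0‖ := norm_pos_iff.2 hy0
      rw [tent, norm_smul, Real.norm_eq_abs, abs_of_pos (by positivity)]
      have : (2 * ‖y0‖)⁻¹ * ‖y0‖ = 1 / 2 := by field_simp
      rw [this]
      norm_num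
    · rw [map_smul, smul_eq_mul, abs_ne_zero]
      exact mul_ne_zero (by simp [hy0]) hy
  obtain ⟨μ, κ, δ0, hμ0, hμ1, hκ, hδ0, hpar⟩ := exists_params hI hJ0
    (mul_nonneg (thirdC_nonneg n) (norm_nonneg e)) n
  set β := μ ^ (n + 3) * J / 2 with hβ
  have hβ0 : 0 < β := by positivity
  set K := ∫ z : Spc n, gdot (bump μ) (bump μ) z + 2 * bump μ z ^ 2
  have hK : 0 ≤ K := integral_nonneg fun z => add_nonneg (gdot_self_nonneg _ z) (by positivity)
  set t := β / (K + 1) with htdef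
  have ht : 0 < t := by positivity
  have htK : t * K ≤ β := by
    rw [htdef, div_mul_eq_mul_div, div_le_iff₀ (by positivity)]
    nlinarith
  set γ := t * β
  have hγ0 : 0 < γ := by positivity
  obtain ⟨ε, hε, hclose⟩ := hu.close e hκ
  obtain ⟨D, hD, hper⟩ := exists_periods hap hε x0
  obtain ⟨M, hM, ζ, hζ, hζc, hζ0, hζ1, hζone, hζint⟩ :=
    exists_cut hu hE e (‖x0‖ + 1) (half_pos hγ0) hD
  obtain ⟨τ, hτu, hτsep, hτbox⟩ := hper M hM
  obtain ⟨K2, hK2, hphi⟩ := integral_dens_rabs hu hζ hζc hζ0 e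
  set δ := min δ0 (γ / (4 * (K2 + 1))) with hδdef
  have hδ : 0 < δ := lt_min hδ0 (by positivity)
  have hδK : δ * K2 ≤ γ / 4 := by
    have h := min_le_right δ0 (γ / (4 * (K2 + 1)))
    rw [← hδdef, le_div_iff₀ (by positivity)] at h
    nlinarith
  set φ := fun x => ζ x * rabs δ (fderiv ℝ u x e)
  have hφ1 : ContDiff ℝ 1 φ := hζ.mul ((rabs_contDiff hδ).comp hv1)
  set c := fun j => x0 + τ j
  have hbump : ∀ j, ∫ x, cross u φ (fun z => bump μ (z - c j)) x ≤ -β := by
    intro j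
    have hη1 : ContDiff ℝ 1 fun z => bump μ (z - c j) :=
      (bump_contDiff μ).comp (contDiff_id.sub contDiff_const)
    have hηc : HasCompactSupport fun z => bump μ (z - c j) :=
      (hasCompactSupport_bump hμ0.le).comp_homeomorph (Homeomorph.subRight (c j))
    have hc : Integrable (cross u φ (fun z => bump μ (z - c j))) :=
      (integrable_cs (continuous_gdot hφ1 hη1) (hasCompactSupport_gdot φ hηc)).add
        (integrable_cs (((continuous_const.mul (hu.smooth.continuous.pow 2)).sub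
          continuous_const).mul (hφ1.continuous.mul hη1.continuous)) hηc.mul_left.mul_left)
    set E := κ * (1 + n) + thirdC n * ‖e‖ * μ ^ 2
    have i1 : Integrable fun y => -2 * (tent μ y * |ℓ y|) :=
      (integrable_cs ((continuous_tent μ).mul ℓ.continuous.abs)
        (hasCompactSupport_tent hμ0.le).mul_right).const_mul _
    have i2 : Integrable fun y : Spc n => (4 * δ + 14 * E) * tent μ y :=
      (integrable_cs (continuous_tent μ) (hasCompactSupport_tent hμ0.le)).const_mul _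
    refine (integral_mono hc ((i1.fun_add i2).comp_sub_right (c j)) fun x =>
      cross_bump_le hu hζ hζ1 ℓ hμ0.le hμ1 hδ
        (fun y hy => hζone _ (hτbox j y (hy.trans hμ1)).1 (hτbox j y (hy.trans hμ1)).2)
        (fun y hy => ?_) x).trans ?_
    · obtain ⟨a1, a2⟩ := hclose (τ j) (hτu j) x0
      exact near_zero hu hv a1 a2 hμ1 hy
    · rw [integral_sub_right_eq_self (fun y => -2 * (tent μ y * |ℓ y|) +
          (4 * δ + 14 * E) * tent μ y) (c j), integral_add i1 i2, integral_const_mul,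
        integral_const_mul, integral_tent hμ0, integral_tent_abs hμ0 ℓ]
      exact hpar δ (min_le_left _ _)
  obtain ⟨g, hg1, hgc, hg⟩ := integral_dens_add_sum hu hφ1 hζc.mul_right hμ0.le c
    (fun i j hij => by
      simp only [c, add_sub_add_left_eq_sub]
      exact lt_of_le_of_lt (by linarith) (hτsep i j hij)) t β ht.le hbump
  have hφle := hphi δ hδ
  have hN : (1 : ℝ) ≤ (M : ℝ) ^ finrank ℝ W := one_le_pow₀ (by exact_mod_cast hM)
  have h0 := hs g hg1 hgc
  simp only [Fintype.card_fun, Fintype.card_fin, Nat.cast_pow] at hg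
  nlinarith [mul_le_mul_of_nonneg_right htK (by positivity : 0 ≤ t * (M : ℝ) ^ finrank ℝ W),
    mul_le_mul_of_nonneg_left hN hγ0.le]

end Vale.Agent.P134

end
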