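import Vale.Agent.P134.Ends

/-!
P134: energy comparison with the limit profile, and the symmetry theorem.
-/

noncomputable section

open Topology Filter Laplacian MeasureTheory Module

namespace Vale.Agent.P134

variable {n : ℕ}

/-- The energy density. -/
def edens (u : Spc n → ℝ) (x : Spc n) : ℝ := gdot u u x / 2 + pot (u x)

/-- The total variation density of a cutoff, in coordinates. -/
def vari (ζ : Spc n → ℝ) (x : Spc n) : ℝ := ∑ i, |fderiv ℝ ζ x (bas i)|

lemma continuous_pot {u : Spc n → ℝ} (hu : Continuous u) : Continuous fun x => pot (u x) :=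
  (((hu.pow 2).sub continuous_const).pow 2).div_const 4

lemma continuous_edens {u : Spc n → ℝ} (hu : Sol u) : Continuous (edens u) :=
  ((continuous_gdot hu.smooth_one hu.smooth_one).div_const 2).add
    (continuous_pot hu.smooth.continuous)

lemma edens_nonneg (u : Spc n → ℝ) (x : Spc n) : 0 ≤ edens u x :=
  add_nonneg (by have := gdot_self_nonneg u x; positivity) (pot_nonneg _)

lemma edens_le {u : Spc n → ℝ} (hu : Sol u) (x : Spc n) : edens u x ≤ n * gradC n ^ 2 + 1 := by
  have h1 := (gdot_self_le u x).trans (mul_le_mul_of_nonneg_left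
    (pow_le_pow_left₀ (norm_nonneg _) (hu.grad_le x) 2) (Nat.cast_nonneg n))
  have h2 : pot (u x) ≤ 1 := by
    obtain ⟨a, b⟩ := abs_le.1 (hu.bound x)
    have : u x ^ 2 ≤ 1 := by nlinarith
    unfold pot
    nlinarith [sq_nonneg (u x)]
  unfold edens
  have := gdot_self_nonneg u x
  linarith

/-- The derivative of the energy density along translations. -/
def edens' (u : Spc n → ℝ) (e y : Spc n) : ℝ :=
  ∑ i, fderiv ℝ u y (bas i) * hess u y e (bas i) + nlf (u y) * fderiv ℝ u y e

lemma edens_hasDerivAt {u : Spc n → ℝ} (hu : Sol u) (e x : Spc n) (s : ℝ) :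
    HasDerivAt (fun s : ℝ => edens u (x + s • e)) (edens' u e (x + s • e)) s := by
  refine (((gdot_self_hasDerivAt hu.smooth x e s).div_const 2).add
    ((pot_hasDerivAt _).comp s (hasDerivAt_line (differentiable_of_two hu.smooth) x e s))
    ).congr_deriv ?_
  unfold edens'
  ring

lemma continuous_edens' {u : Spc n → ℝ} (hu : Sol u) (e : Spc n) : Continuous (edens' u e) :=
  (continuous_finsetSum _ fun _ _ => (continuous_fderiv_apply hu.smooth_one _).mul
    (((continuous_hess hu.smooth).clm_apply continuous_const).clm_apply continuous_const)).add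
    (((hu.smooth.continuous.pow 3).sub hu.smooth.continuous).mul
      (continuous_fderiv_apply hu.smooth_one e))

lemma edens'_abs {u : Spc n → ℝ} (hu : Sol u) (e y : Spc n) :
    |edens' u e y| ≤ n * (gradC n * (hessC n * ‖e‖)) + 2 * (gradC n * ‖e‖) := by
  have hg : ∀ w, |fderiv ℝ u y w| ≤ gradC n * ‖w‖ := fun w =>
    ((fderiv ℝ u y).le_opNorm w).trans (mul_le_mul_of_nonneg_right (hu.grad_le y) (norm_nonneg w))
  refine (abs_add_le _ _).trans (add_le_add ?_ ?_)
  · refine (Finset.abs_sum_le_sum_abs _ _).trans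
      ((Finset.sum_le_card_nsmul _ _ (gradC n * (hessC n * ‖e‖)) fun i _ => ?_).trans
        (le_of_eq (by simp)))
    rw [abs_mul]
    refine mul_le_mul ?_ ?_ (abs_nonneg _) (gradC_nonneg n)
    · simpa using hg (bas i)
    · have h := (hess u y).le_opNorm₂ e (bas i)
      rw [OrthonormalBasis.norm_eq_one, mul_one, Real.norm_eq_abs] at h
      exact h.trans (mul_le_mul_of_nonneg_right (hu.hess_le y) (norm_nonneg e))
  · rw [abs_mul]
    exact mul_le_mul (nlf_abs (hu.bound y)) (hg e) (abs_nonneg _) two_pos.le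

/-- Translation towards the limit profile changes the localized energy by at most the variation of
the cutoff. -/
lemma energy_compare {u : Spc n → ℝ} (hu : Sol u) {e : Spc n} (he : ∀ x, 0 < fderiv ℝ u x e)
    {ζ : Spc n → ℝ} (hζ : ContDiff ℝ 1 ζ) (hζc : HasCompactSupport ζ) :
    ∫ x, ζ x * edens u x ≤
      (∫ x, ζ x * edens (ubar u e) x) + 2 * gradC n * ∫ x, vari ζ x := by
  set G := gradC n
  have hG : 0 ≤ G := gradC_nonneg n
  have hS : Continuous (vari ζ) :=
    continuous_finsetSum _ fun i _ => (continuous_fderiv_apply hζ _).abs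
  have hSc : HasCompactSupport (vari ζ) := by
    refine (hζc.fderiv ℝ).mono fun x hx => ?_
    contrapose! hx
    simp only [Function.mem_support, ne_eq, not_not] at hx ⊢
    simp [vari, hx]
  have hS0 : ∀ x, 0 ≤ vari ζ x := fun x => Finset.sum_nonneg fun i _ => abs_nonneg _
  set F := fun (s : ℝ) (x : Spc n) =>
    ζ x * edens u (x + s • e) + G * (vari ζ x * u (x + s • e))
  set F' := fun (s : ℝ) (x : Spc n) =>
    ζ x * edens' u e (x + s • e) + G * (vari ζ x * fderiv ℝ u (x + s • e) e)
  have hsh : ∀ s : ℝ, Continuous fun x : Spc n => x + s • e := fun s =>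
    continuous_id.add continuous_const
  have hFi : ∀ s, Integrable (F s) := fun s =>
    (integrable_cs (hζ.continuous.mul ((continuous_edens hu).comp (hsh s))) hζc.mul_right).add
      ((integrable_cs (hS.mul (hu.smooth.continuous.comp (hsh s))) hSc.mul_right).const_mul G)
  have hF'c : ∀ s, Continuous (F' s) := fun s =>
    (hζ.continuous.mul ((continuous_edens' hu e).comp (hsh s))).add
      (continuous_const.mul (hS.mul ((continuous_fderiv_apply hu.smooth_one e).comp (hsh s))))
  set C := (n : ℝ) * (G * (hessC n * ‖e‖)) + 2 * (G * ‖e‖)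
  have hH : ∀ s, HasDerivAt (fun s => ∫ x, F s x) (∫ x, F' s x) s := by
    intro s
    refine (hasDerivAt_integral_of_dominated_loc_of_deriv_le (F := F) (F' := F')
      (bound := fun x => |ζ x| * C + G * (vari ζ x * (G * ‖e‖))) (s := Set.univ) Filter.univ_mem
      (Eventually.of_forall fun t => (hFi t).aestronglyMeasurable) (hFi s)
      (hF'c s).aestronglyMeasurable (Eventually.of_forall fun x t _ => ?_)
      (((integrable_cs hζ.continuous hζc).abs.mul_const C).add
        (((integrable_cs hS hSc).mul_const _).const_mul G))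
      (Eventually.of_forall fun x t _ => ?_)).2
    · rw [Real.norm_eq_abs]
      refine (abs_add_le _ _).trans (add_le_add ?_ ?_)
      · rw [abs_mul]
        exact mul_le_mul_of_nonneg_left (edens'_abs hu e _) (abs_nonneg _)
      · rw [abs_mul, abs_mul, abs_of_nonneg hG, abs_of_nonneg (hS0 x)]
        refine mul_le_mul_of_nonneg_left (mul_le_mul_of_nonneg_left ?_ (hS0 x)) hG
        exact ((fderiv ℝ u (x + t • e)).le_opNorm e).trans
          (mul_le_mul_of_nonneg_right (hu.grad_le _) (norm_nonneg e))
    · exact ((edens_hasDerivAt hu e x t).const_mul (ζ x)).add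
        (((hasDerivAt_line (differentiable_of_two hu.smooth) x e t).const_mul (vari ζ x)).const_mul G)
  have hpos : ∀ s, 0 ≤ ∫ x, F' s x := by
    intro s
    set us := fun y => u (y + s • e)
    have hus : Sol us := hu.translate (s • e)
    set w := fun y => fderiv ℝ us y e
    have hw : ContDiff ℝ 1 w := contDiff_deriv hus.smooth e
    set η := fun y => ζ y * w y
    have hη : ContDiff ℝ 1 η := hζ.mul hw
    have hηc : HasCompactSupport η := hζc.mul_right
    have h0 := hus.weak hη hηc
    have iW : Integrable fun x => gdot us η x + nlf (us x) * η x :=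
      (integrable_cs (continuous_gdot hus.smooth_one hη) (hasCompactSupport_gdot us hηc)).add
        (integrable_cs (((hus.smooth.continuous.pow 3).sub hus.smooth.continuous).mul
          hη.continuous) hηc.mul_left)
    rw [← h0]
    refine integral_mono iW ?_ fun x => ?_
    · exact (integrable_cs (hζ.continuous.mul ((continuous_edens' hu e).comp (hsh s)))
        hζc.mul_right).add ((integrable_cs (hS.mul
          ((continuous_fderiv_apply hu.smooth_one e).comp (hsh s))) hSc.mul_right).const_mul G)
    · have hd : ∀ i, fderiv ℝ η x (bas i) = ζ x * hess u (x + s • e) e (bas i) +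
          fderiv ℝ u (x + s • e) e * fderiv ℝ ζ x (bas i) := by
        intro i
        rw [((hζ.differentiable one_ne_zero x).hasFDerivAt.fun_mul
          (hw.differentiable one_ne_zero x).hasFDerivAt).fderiv]
        simp only [add_apply, smul_apply, smul_eq_mul]
        rw [fderiv_deriv hus.smooth, hess_translate, hess_symm hu.smooth]
        simp only [w, us, fderiv_translate]
      have hwp := (he (x + s • e)).le
      have hb : -(∑ i, fderiv ℝ u (x + s • e) (bas i) * fderiv ℝ ζ x (bas i)) ≥ -(G * vari ζ x) := by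
        refine neg_le_neg ((le_abs_self _).trans ((Finset.abs_sum_le_sum_abs _ _).trans ?_))
        rw [vari, Finset.mul_sum]
        refine Finset.sum_le_sum fun i _ => ?_
        rw [abs_mul]
        refine mul_le_mul_of_nonneg_right ?_ (abs_nonneg _)
        have := (fderiv ℝ u (x + s • e)).le_opNorm (bas i)
        rw [OrthonormalBasis.norm_eq_one, mul_one, Real.norm_eq_abs] at this
        exact this.trans (hu.grad_le _)
      have e1 : gdot us η x + nlf (us x) * η x = ζ x * edens' u e (x + s • e) +
          fderiv ℝ u (x + s • e) e *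
            ∑ i, fderiv ℝ u (x + s • e) (bas i) * fderiv ℝ ζ x (bas i) := by
        simp only [gdot, hd, edens', Finset.mul_sum, mul_add, Finset.sum_add_distrib]
        simp only [η, w, us, fderiv_translate]
        ring_nf
        refine congrArg₂ _ (congrArg₂ _ rfl ?_) ?_ <;> exact Finset.sum_congr rfl fun i _ => by ring
      rw [e1]
      simp only [F']
      nlinarith [mul_le_mul_of_nonneg_left hb hwp]
  have hmono : Monotone fun s => ∫ x, F s x := monotone_of_hasDerivAt_nonneg hH hpos
  obtain ⟨hū, -, hDū⟩ := hu.limit_sol he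
  have hlim : Tendsto (fun m : ℕ => ∫ x, F m x) atTop
      (𝓝 (∫ x, ζ x * edens (ubar u e) x + G * (vari ζ x * ubar u e x))) := by
    refine tendsto_integral_of_dominated_convergence
      (fun x => |ζ x| * (n * G ^ 2 + 1) + G * (vari ζ x * 1))
      (fun m => (hFi m).aestronglyMeasurable)
      (((integrable_cs hζ.continuous hζc).abs.mul_const _).add
        (((integrable_cs hS hSc).mul_const _).const_mul G))
      (fun m => Eventually.of_forall fun x => ?_) (Eventually.of_forall fun x => ?_)
    · rw [Real.norm_eq_abs]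
      refine (abs_add_le _ _).trans (add_le_add ?_ ?_)
      · rw [abs_mul, abs_of_nonneg (edens_nonneg u _)]
        exact mul_le_mul_of_nonneg_left (edens_le hu _) (abs_nonneg _)
      · rw [abs_mul, abs_mul, abs_of_nonneg hG, abs_of_nonneg (hS0 x)]
        exact mul_le_mul_of_nonneg_left (mul_le_mul_of_nonneg_left (hu.bound _) (hS0 x)) hG
    · refine Tendsto.add (Tendsto.const_mul _ (Tendsto.add ?_ ?_))
        (((hu.tendsto_ubar_nat he x).const_mul _).const_mul _)
      · exact (tendsto_finsetSum _ fun i _ => (hDū x (bas i)).mul (hDū x (bas i))).div_const 2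
      · exact (((((hu.tendsto_ubar_nat he x).pow 2).sub_const 1).pow 2).div_const 4)
  have hle := ge_of_tendsto hlim (Eventually.of_forall fun m =>
    hmono (show (0 : ℝ) ≤ (m : ℝ) from Nat.cast_nonneg m))
  simp only [F, zero_smul, add_zero] at hle
  have j1 : Integrable fun x => ζ x * edens u x :=
    integrable_cs (hζ.continuous.mul (continuous_edens hu)) hζc.mul_right
  have j2 : Integrable fun x => ζ x * edens (ubar u e) x :=
    integrable_cs (hζ.continuous.mul (continuous_edens hū)) hζc.mul_right
  have j3 : ∀ {v : Spc n → ℝ}, Sol v → Integrable fun x => G * (vari ζ x * v x) := fun {v} hv =>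
    (integrable_cs (hS.mul hv.smooth.continuous) hSc.mul_right).const_mul G
  rw [integral_add j1 (j3 hu), integral_add j2 (j3 hū), integral_const_mul,
    integral_const_mul] at hle
  have a1 : -(∫ x, vari ζ x) ≤ ∫ x, vari ζ x * u x := by
    rw [← integral_neg]
    refine integral_mono (integrable_cs hS hSc).neg
      (integrable_cs (hS.mul hu.smooth.continuous) hSc.mul_right) fun x => ?_
    nlinarith [hS0 x, (abs_le.1 (hu.bound x)).1]
  have a2 : ∫ x, vari ζ x * ubar u e x ≤ ∫ x, vari ζ x :=
    integral_mono (integrable_cs (hS.mul hū.smooth.continuous) hSc.mul_right)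
      (integrable_cs hS hSc) fun x => by nlinarith [hS0 x, (abs_le.1 (hū.bound x)).2]
  nlinarith [mul_le_mul_of_nonneg_left a1 hG, mul_le_mul_of_nonneg_left a2 hG]

/-- A cutoff equal to one on a box, supported in the double box. -/
lemma exists_box_cut (W : Submodule ℝ (Spc n)) : ∃ B : ℝ, ∀ R R' : ℝ, 1 ≤ R → R ≤ R' →
    ∃ ζ : Spc n → ℝ, ContDiff ℝ 1 ζ ∧ (∀ x, 0 ≤ ζ x) ∧ (∀ x, ζ x ≤ 1) ∧
      (∀ x ∈ box W R R', ζ x = 1) ∧
      (∀ x, x ∉ box W (2 * R) (2 * R') → ζ x = 0 ∧ vari ζ x = 0) ∧
      ∀ x, vari ζ x ≤ B / R := by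
  obtain ⟨B, hB⟩ := chi_deriv_bound
  have hB0 : 0 ≤ B := (abs_nonneg _).trans (hB 0)
  refine ⟨n * (B * 2), fun R R' hR hR' => ?_⟩
  have hR0 : 0 < R := by linarith
  have hR'0 : 0 < R' := by linarith
  set a := fun y => (4 * R ^ 2)⁻¹ * ‖Wᗮ.starProjection y‖ ^ 2 with ha
  set b := fun y => (4 * R' ^ 2)⁻¹ * ‖W.starProjection y‖ ^ 2 with hb
  have hac : ContDiff ℝ 1 a := contDiff_const.mul (projSq_contDiff Wᗮ)
  have hbc : ContDiff ℝ 1 b := contDiff_const.mul (projSq_contDiff W)
  have hbox : ∀ x, cut a b x ≠ 0 → x ∈ box W (2 * R) (2 * R') := by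
    intro x hx
    obtain ⟨h1, h2⟩ := cut_ne_zero hx
    simp only [ha, hb] at h1 h2
    rw [inv_mul_lt_iff₀ (by positivity), mul_one] at h1 h2
    constructor
    · refine (pow_le_pow_iff_left₀ (norm_nonneg _) (by positivity) two_ne_zero).1 ?_
      linarith
    · refine (pow_le_pow_iff_left₀ (norm_nonneg _) (by positivity) two_ne_zero).1 ?_
      linarith
  have hz : ∀ x, cut a b x = 0 → vari (cut a b) x = 0 := fun x h => by
    simp [vari, fderiv_cut_eq_zero h]
  refine ⟨cut a b, cut_contDiff hac hbc, cut_nonneg a b, cut_le_one a b, fun x hx => ?_,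
    fun x hx => ⟨by_contra fun h => hx (hbox x h), hz x (by_contra fun h => hx (hbox x h))⟩,
    fun x => ?_⟩
  · have h1 : a x ≤ 1 / 2 := by
      simp only [ha]
      rw [inv_mul_le_iff₀ (by positivity)]
      nlinarith [pow_le_pow_left₀ (norm_nonneg _) hx.1 2]
    have h2 : b x ≤ 1 / 2 := by
      simp only [hb]
      rw [inv_mul_le_iff₀ (by positivity)]
      nlinarith [pow_le_pow_left₀ (norm_nonneg _) hx.2 2]
    simp [cut, chi_one h1, chi_one h2]
  · by_cases h : cut a b x = 0
    · rw [hz x h]; positivity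
    obtain ⟨hx1, hx2⟩ := hbox x h
    have hα : ∀ w, |fderiv ℝ a x w| ≤ 1 / R * ‖w‖ := fun w => by
      simp only [ha]
      rw [fderiv_const_mul ((projSq_contDiff Wᗮ).differentiable one_ne_zero x), smul_apply,
        smul_eq_mul, abs_mul, abs_of_pos (show 0 < (4 * R ^ 2)⁻¹ by positivity),
        inv_mul_le_iff₀ (by positivity)]
      refine (projSq_deriv Wᗮ x w).trans ?_
      rw [show 4 * R ^ 2 * (1 / R * ‖w‖) = 2 * (2 * R) * ‖w‖ by field_simp; ring]
      gcongr
    have hβ : ∀ w, |fderiv ℝ b x w| ≤ 1 / R * ‖w‖ := fun w => by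
      simp only [hb]
      rw [fderiv_const_mul ((projSq_contDiff W).differentiable one_ne_zero x), smul_apply,
        smul_eq_mul, abs_mul, abs_of_pos (show 0 < (4 * R' ^ 2)⁻¹ by positivity),
        inv_mul_le_iff₀ (by positivity)]
      refine (projSq_deriv W x w).trans ?_
      refine le_trans (b := 2 * (2 * R') * ‖w‖) (by gcongr) ?_
      rw [show 4 * R' ^ 2 * (1 / R * ‖w‖) = 2 * (2 * R') * ‖w‖ * (R' / R) by field_simp; ring]
      exact le_mul_of_one_le_right (by positivity) ((one_le_div hR0).2 hR')
    refine (Finset.sum_le_card_nsmul _ _ (B * (1 / R + 1 / R)) fun i _ => ?_).trans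
      (le_of_eq (by simp; ring))
    simpa using fderiv_cut_le hac hbc hB hα hβ (bas i)

/-- The energy of a monotone almost periodic solution. -/
theorem energy_of_mono {W : Submodule ℝ (Spc n)} {u : Spc n → ℝ} (hu : Sol u) {e : Spc n}
    (he : ∀ x, 0 < fderiv ℝ u x e) (hW : n ≤ finrank ℝ W + 3) (hap : AP W u) : Energy W u := by
  set k := finrank ℝ W
  obtain ⟨hū, hūs, -⟩ := hu.limit_sol he
  have hap' := hu.ubar_ap he hap
  have hfin' : finrank ℝ (W ⊔ ℝ ∙ e : Submodule ℝ (Spc n)) = k + 1 :=
    Submodule.finrank_sup_span_singleton (hu.not_mem_of_ap he hap)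
  have hWc : k + finrank ℝ Wᗮ = n := by
    rw [W.finrank_add_finrank_orthogonal, finrank_euclideanSpace_fin]
  have hW'c : finrank ℝ (W ⊔ ℝ ∙ e : Submodule ℝ (Spc n))ᗮ ≤ 2 := by
    have := (W ⊔ ℝ ∙ e).finrank_add_finrank_orthogonal
    rw [hfin', finrank_euclideanSpace_fin] at this
    omega
  have hk : KeyProp (ubar u e) := fun x v hv y =>
    key hū hūs hap' (energy_of_small_codim hū hW'c) x v hv y
  obtain ⟨C1, hC1, hE⟩ := profile_energy (W := W) (W' := W ⊔ ℝ ∙ e) le_sup_left (by omega)
    hū hūs hk hap'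
  obtain ⟨B0, hcut⟩ := exists_box_cut W
  set B := max B0 0
  set G := gradC n
  have hG : 0 ≤ G := gradC_nonneg n
  refine ⟨2 * (4 * C1 * 2 ^ k + 2 * G * B * 4 ^ k * 64), by positivity, fun R R' hR hR' => ?_⟩
  have hR0 : 0 < R := by linarith
  have hR'0 : 0 < R' := by linarith
  obtain ⟨ζ, hζ, hζ0, hζ1, hζbox, hζout, hvar⟩ := hcut R R' hR hR'
  set D := box W (2 * R) (2 * R')
  have hD : MeasurableSet D := (isClosed_box W _ _).measurableSet
  have hζc : HasCompactSupport ζ :=
    HasCompactSupport.intro (isCompact_box W _ _) fun x hx => (hζout x hx).1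
  have h1 := energy_compare hu he hζ hζc
  have hl : ∫ x in box W R R', gdot u u x ≤ 2 * ∫ x, ζ x * edens u x := by
    rw [← integral_const_mul]
    refine (setIntegral_mono_on
      ((continuous_gdot hu.smooth_one hu.smooth_one).continuousOn.integrableOn_compact
        (isCompact_box W R R'))
      ((integrable_cs (hζ.continuous.mul (continuous_edens hu)) hζc.mul_right).const_mul
        2).integrableOn (isClosed_box W R R').measurableSet fun x hx => ?_).trans
      (setIntegral_le_integral
        ((integrable_cs (hζ.continuous.mul (continuous_edens hu)) hζc.mul_right).const_mul 2)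
        (Eventually.of_forall fun x => by
          have := hζ0 x; have := edens_nonneg u x; simp only [Pi.mul_apply, Pi.zero_apply]; positivity))
    simp only [Pi.mul_apply]
    rw [hζbox x hx, one_mul, edens]
    linarith [pot_nonneg (u x)]
  have h2 : ∫ x, ζ x * edens (ubar u e) x ≤ C1 * (2 * R) ^ 2 * (2 * R') ^ k := by
    rw [← setIntegral_eq_integral_of_forall_compl_eq_zero (s := D) fun x hx => by
      rw [(hζout x hx).1, zero_mul]]
    refine le_trans (setIntegral_mono_on
      ((hζ.continuous.mul (continuous_edens hū)).continuousOn.integrableOn_compact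
        (isCompact_box W _ _))
      ((continuous_edens hū).continuousOn.integrableOn_compact (isCompact_box W _ _)) hD
      fun x _ => mul_le_of_le_one_left (edens_nonneg _ x) (hζ1 x))
      (hE (2 * R) (2 * R') (by linarith) (by linarith))
  have h3 : ∫ x, vari ζ x ≤
      B / R * ((2 * (2 * R')) ^ k * (2 * (2 * R)) ^ finrank ℝ Wᗮ) := by
    rw [← setIntegral_eq_integral_of_forall_compl_eq_zero (s := D) fun x hx => (hζout x hx).2]
    refine setIntegral_box_le_const W (continuous_finsetSum _ fun i _ =>
      (continuous_fderiv_apply hζ _).abs) (by linarith) (by linarith) (by positivity) fun x _ =>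
      (hvar x).trans (by gcongr; exact le_max_left _ _)
  have h4 : B / R * ((2 * (2 * R')) ^ k * (2 * (2 * R)) ^ finrank ℝ Wᗮ) ≤
      B * 4 ^ k * 64 * R ^ 2 * R' ^ k := by
    have h5 : (2 * (2 * R)) ^ finrank ℝ Wᗮ ≤ 64 * R ^ 3 := by
      refine (pow_le_pow_right₀ (by linarith) (show finrank ℝ Wᗮ ≤ 3 by omega)).trans (le_of_eq ?_)
      ring
    refine (mul_le_mul_of_nonneg_left (mul_le_mul_of_nonneg_left h5 (by positivity))
      (by positivity)).trans (le_of_eq ?_)
    rw [← mul_assoc 2 2 R', mul_pow]
    norm_num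
    field_simp
  have h6 := mul_le_mul_of_nonneg_left (h3.trans h4) (show (0 : ℝ) ≤ 2 * G by linarith)
  rw [mul_pow 2 R', mul_pow 2 R] at h2
  have h7 : 0 ≤ C1 * R ^ 2 * (2 ^ k * R' ^ k) := by positivity
  linarith

/-- One-dimensional symmetry of monotone solutions almost periodic in all but three directions. -/
theorem one_dim {W : Submodule ℝ (Spc n)} {u : Spc n → ℝ} (hu : Sol u) {e : Spc n}
    (he : ∀ x, 0 < fderiv ℝ u x e) (hW : n ≤ finrank ℝ W + 3) (hap : AP W u) :
    ∃ ν : Spc n, ‖ν‖ = 1 ∧ ∃ h : ℝ → ℝ, ∀ x, u x = h (inner ℝ ν x) := by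
  have hE := energy_of_mono hu he hW hap
  have hk : KeyProp u := fun x v hv y => key hu (hu.stable_of_mono he) hap hE x v hv y
  rcases const_or_profile hu hk with ⟨a, -, hua⟩ | ⟨ν, g, d, hp⟩
  · exfalso
    have h := he 0
    rw [funext hua, fderiv_const_apply] at h
    exact lt_irrefl 0 h
  · exact ⟨ν, hp.unit, g, hp.eq⟩

end Vale.Agent.P134

end
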