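import Vale.Agent.P134.Basics

/-!
P134: bounds on the first two derivatives of bounded solutions, and limits of solutions.
-/

noncomputable section

open Topology Filter Laplacian

namespace Vale.Agent.P134

variable {n : ℕ}

/-- A bounded solution of the Allen-Cahn equation. -/
structure Sol (u : Spc n → ℝ) : Prop where
  smooth : ContDiff ℝ 2 u
  bound : ∀ x, |u x| ≤ 1
  eq : ∀ x, Δ u x = u x ^ 3 - u x

/-- The nonlinearity. -/
def nlf (s : ℝ) : ℝ := s ^ 3 - s

lemma nlf_abs {a : ℝ} (ha : |a| ≤ 1) : |nlf a| ≤ 2 := by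
  obtain ⟨h1, h2⟩ := abs_le.1 ha
  unfold nlf
  rw [abs_le]
  constructor <;> nlinarith [sq_nonneg a]

lemma nlf_quot {a b : ℝ} (ha : |a| ≤ 1) (hb : |b| ≤ 1) : |a ^ 2 + a * b + b ^ 2 - 1| ≤ 4 := by
  obtain ⟨h1, h2⟩ := abs_le.1 ha
  obtain ⟨h3, h4⟩ := abs_le.1 hb
  rw [abs_le]
  constructor <;> nlinarith [sq_nonneg (a + b), sq_nonneg (a - b)]

lemma nlf_lip {a b : ℝ} (ha : |a| ≤ 1) (hb : |b| ≤ 1) : |nlf a - nlf b| ≤ 4 * |a - b| := by
  have e : nlf a - nlf b = (a ^ 2 + a * b + b ^ 2 - 1) * (a - b) := by unfold nlf; ring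
  rw [e, abs_mul]
  exact mul_le_mul_of_nonneg_right (nlf_quot ha hb) (abs_nonneg _)

lemma nlf_second {a b c d : ℝ} (ha : |a| ≤ 1) (hb : |b| ≤ 1) (hc : |c| ≤ 1) (hd : |d| ≤ 1) :
    |nlf a - nlf b - nlf c + nlf d| ≤
      4 * |a - b - c + d| + 3 * (|a - c| + |b - d|) * |c - d| := by
  have e : nlf a - nlf b - nlf c + nlf d = (a ^ 2 + a * b + b ^ 2 - 1) * (a - b - c + d) +
      ((a + c + b) * (a - c) + (b + d + c) * (b - d)) * (c - d) := by
    unfold nlf; ring
  rw [e]
  refine (abs_add_le _ _).trans (add_le_add ?_ ?_) <;> rw [abs_mul]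
  · exact mul_le_mul_of_nonneg_right (nlf_quot ha hb) (abs_nonneg _)
  · refine mul_le_mul_of_nonneg_right ((abs_add_le _ _).trans ?_) (abs_nonneg _)
    rw [abs_mul, abs_mul, mul_add]
    have h1 : |a + c + b| ≤ 3 := by linarith [abs_add_three a c b]
    have h2 : |b + d + c| ≤ 3 := by linarith [abs_add_three b d c]
    exact add_le_add (mul_le_mul_of_nonneg_right h1 (abs_nonneg _))
      (mul_le_mul_of_nonneg_right h2 (abs_nonneg _))

/-- The bound on the gradient. -/
def gradC (n : ℕ) : ℝ := gc n * 3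

/-- The Lipschitz constant of the gradient. -/
def hessC (n : ℕ) : ℝ := gc n * (5 * gradC n)

/-- The Lipschitz constant of the second derivative. -/
def thirdC (n : ℕ) : ℝ := gc n * (5 * hessC n + 6 * gradC n ^ 2)

lemma gradC_nonneg (n : ℕ) : 0 ≤ gradC n := mul_nonneg (gc_nonneg n) (by norm_num)

lemma hessC_nonneg (n : ℕ) : 0 ≤ hessC n :=
  mul_nonneg (gc_nonneg n) (mul_nonneg (by norm_num) (gradC_nonneg n))

lemma thirdC_nonneg (n : ℕ) : 0 ≤ thirdC n :=
  mul_nonneg (gc_nonneg n) (by have := hessC_nonneg n; positivity)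

lemma abs_sub_le_of_fderiv {w : Spc n → ℝ} (hw : Differentiable ℝ w) {C : ℝ}
    (hC : ∀ y, ‖fderiv ℝ w y‖ ≤ C) (x y : Spc n) : |w y - w x| ≤ C * ‖y - x‖ :=
  Convex.norm_image_sub_le_of_norm_fderiv_le (fun z _ => hw z) (fun z _ => hC z) convex_univ
    (Set.mem_univ x) (Set.mem_univ y)

lemma lap_sub {v w : Spc n → ℝ} (hv : ContDiff ℝ 2 v) (hw : ContDiff ℝ 2 w) (x : Spc n) :
    Δ (fun y => v y - w y) x = Δ v x - Δ w x :=
  ContDiffAt.laplacian_sub hv.contDiffAt hw.contDiffAt

namespace Sol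

variable {u : Spc n → ℝ} (hu : Sol u)
include hu

lemma lap_abs (x : Spc n) : |Δ u x| ≤ 2 := by rw [hu.eq]; exact nlf_abs (hu.bound x)

lemma lap_nlf (x : Spc n) : Δ u x = nlf (u x) := hu.eq x

lemma grad_le (x : Spc n) : ‖fderiv ℝ u x‖ ≤ gradC n := by
  have := norm_fderiv_le hu.smooth hu.bound hu.lap_abs x
  unfold gradC
  linarith

lemma lip (x y : Spc n) : |u y - u x| ≤ gradC n * ‖y - x‖ :=
  abs_sub_le_of_fderiv (differentiable_of_two hu.smooth) hu.grad_le x y

lemma translate (a : Spc n) : Sol (fun y => u (y + a)) where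
  smooth := hu.smooth.comp (contDiff_id.add contDiff_const)
  bound y := hu.bound _
  eq y := by rw [lap_translate]; exact hu.eq _

lemma grad_lip (h x : Spc n) :
    ‖fderiv ℝ u (x + h) - fderiv ℝ u x‖ ≤ hessC n * ‖h‖ := by
  have hs := (hu.translate h).smooth
  have := norm_fderiv_le (u := fun y => u (y + h) - u y) (hs.sub hu.smooth)
    (A := gradC n * ‖h‖) (N := 4 * (gradC n * ‖h‖))
    (fun y => by simpa using hu.lip y (y + h))
    (fun y => by
      rw [lap_sub hs hu.smooth, (hu.translate h).lap_nlf, hu.lap_nlf]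
      refine (nlf_lip (hu.bound _) (hu.bound _)).trans ?_
      have := hu.lip y (y + h)
      rw [add_sub_cancel_left] at this
      linarith) x
  rw [fderiv_fun_sub (differentiable_of_two hs x) (differentiable_of_two hu.smooth x),
    fderiv_translate] at this
  refine this.trans (le_of_eq ?_)
  unfold hessC
  ring

lemma hess_le (x : Spc n) : ‖hess u x‖ ≤ hessC n := by
  refine norm_fderiv_le_of_lipschitz ℝ (C := ⟨hessC n, hessC_nonneg n⟩) ?_
  refine LipschitzWith.of_dist_le_mul fun a b => ?_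
  rw [dist_eq_norm, dist_eq_norm]
  have := hu.grad_lip (a - b) b
  rw [add_sub_cancel] at this
  exact this

lemma second_diff (h k x : Spc n) :
    |u (x + h + k) - u (x + k) - u (x + h) + u x| ≤ hessC n * ‖h‖ * ‖k‖ := by
  have hs := (hu.translate h).smooth
  have hd : Differentiable ℝ fun y => u (y + h) - u y :=
    (differentiable_of_two hs).sub (differentiable_of_two hu.smooth)
  have := abs_sub_le_of_fderiv hd (C := hessC n * ‖h‖) (fun y => by
    rw [fderiv_fun_sub (differentiable_of_two hs y) (differentiable_of_two hu.smooth y),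
      fderiv_translate]
    exact hu.grad_lip h y) x (x + k)
  rw [add_sub_cancel_left] at this
  refine le_trans (le_of_eq ?_) this
  rw [show x + k + h = x + h + k by abel]
  congr 1
  ring

lemma hess_lip (h x : Spc n) : ‖hess u (x + h) - hess u x‖ ≤ thirdC n * ‖h‖ := by
  have hd : ∀ y, HasFDerivAt (fun y => fderiv ℝ u (y + h) - fderiv ℝ u y)
      (hess u (y + h) - hess u y) y := fun y =>
    ((hasFDerivAt_comp_add_right h).2 (differentiable_fderiv hu.smooth (y + h)).hasFDerivAt).sub
      (differentiable_fderiv hu.smooth y).hasFDerivAt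
  rw [← (hd x).fderiv]
  refine norm_fderiv_le_of_lipschitz ℝ
    (C := ⟨thirdC n * ‖h‖, mul_nonneg (thirdC_nonneg n) (norm_nonneg _)⟩) ?_
  refine LipschitzWith.of_dist_le_mul fun a b => ?_
  rw [dist_eq_norm, dist_eq_norm]
  obtain ⟨k, rfl⟩ : ∃ k, a = b + k := ⟨a - b, (add_sub_cancel b a).symm⟩
  rw [add_sub_cancel_left]
  set w := fun y => (fun y => u (y + h) - u y) (y + k) - (fun y => u (y + h) - u y) y with hw
  have hs0 : ContDiff ℝ 2 fun y => u (y + h) - u y := (hu.translate h).smooth.sub hu.smooth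
  have hs1 : ContDiff ℝ 2 fun y => (fun y => u (y + h) - u y) (y + k) :=
    hs0.comp (contDiff_id.add contDiff_const)
  have hbound := norm_fderiv_le (u := w) (hs1.sub hs0) (A := hessC n * ‖h‖ * ‖k‖)
    (N := 4 * (hessC n * ‖h‖ * ‖k‖) + 6 * gradC n ^ 2 * (‖h‖ * ‖k‖))
    (fun y => by
      simp only [hw]
      refine le_trans (le_of_eq ?_) (hu.second_diff h k y)
      rw [show y + k + h = y + h + k by abel]
      congr 1
      ring)
    (fun y => by
      simp only [hw]
      rw [lap_sub hs1 hs0, lap_translate (fun y => u (y + h) - u y) k y,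
        lap_sub (hu.translate h).smooth hu.smooth, lap_sub (hu.translate h).smooth hu.smooth,
        (hu.translate h).lap_nlf, hu.lap_nlf, (hu.translate h).lap_nlf, hu.lap_nlf,
        show y + k + h = y + h + k by abel]
      rw [show nlf (u (y + h + k)) - nlf (u (y + k)) - (nlf (u (y + h)) - nlf (u y)) =
        nlf (u (y + h + k)) - nlf (u (y + k)) - nlf (u (y + h)) + nlf (u y) by ring]
      refine (nlf_second (hu.bound _) (hu.bound _) (hu.bound _) (hu.bound _)).trans ?_
      have e1 := hu.second_diff h k y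
      have e2 := hu.lip (y + h) (y + h + k)
      have e3 := hu.lip y (y + k)
      have e4 := hu.lip y (y + h)
      rw [add_sub_cancel_left] at e2 e3 e4
      have := abs_nonneg (u (y + h) - u y)
      have := mul_le_mul (add_le_add e2 e3) e4 (abs_nonneg _)
        (by have := gradC_nonneg n; positivity)
      nlinarith) b
  have hd0 : ∀ y, fderiv ℝ (fun y => u (y + h) - u y) y = fderiv ℝ u (y + h) - fderiv ℝ u y :=
    fun y => by
      rw [fderiv_fun_sub (differentiable_of_two (hu.translate h).smooth y)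
        (differentiable_of_two hu.smooth y), fderiv_translate]
  have hdw : fderiv ℝ w b = fderiv ℝ u (b + k + h) - fderiv ℝ u (b + k) -
      (fderiv ℝ u (b + h) - fderiv ℝ u b) := by
    rw [hw, fderiv_fun_sub (differentiable_of_two hs1 b) (differentiable_of_two hs0 b),
      fderiv_comp_add_right (f := fun y => u (y + h) - u y) k, hd0, hd0]
  rw [hdw] at hbound
  refine hbound.trans (le_of_eq ?_)
  show _ = thirdC n * ‖h‖ * ‖k‖
  unfold thirdC
  ring

/-- First-order Taylor bound. -/
lemma taylor (x h : Spc n) : |u (x + h) - u x - fderiv ℝ u x h| ≤ hessC n * ‖h‖ ^ 2 := by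
  have := Convex.norm_image_sub_le_of_norm_fderiv_le' (𝕜 := ℝ) (f := u) (φ := fderiv ℝ u x)
    (C := hessC n * ‖h‖) (s := Metric.closedBall x ‖h‖)
    (fun z _ => differentiable_of_two hu.smooth z) (fun z hz => by
      have := hu.grad_lip (z - x) x
      rw [add_sub_cancel] at this
      refine this.trans (mul_le_mul_of_nonneg_left ?_ (hessC_nonneg n))
      simpa [dist_eq_norm] using hz)
    (convex_closedBall _ _) (Metric.mem_closedBall_self (norm_nonneg h))
    (show x + h ∈ Metric.closedBall x ‖h‖ by simp)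
  rw [add_sub_cancel_left, Real.norm_eq_abs] at this
  refine this.trans (le_of_eq ?_)
  ring

/-- First-order Taylor bound for the derivative. -/
lemma taylor_deriv (x h v : Spc n) :
    |fderiv ℝ u (x + h) v - fderiv ℝ u x v - hess u x h v| ≤ thirdC n * ‖h‖ ^ 2 * ‖v‖ := by
  have := Convex.norm_image_sub_le_of_norm_fderiv_le' (𝕜 := ℝ) (f := fderiv ℝ u) (φ := hess u x)
    (C := thirdC n * ‖h‖) (s := Metric.closedBall x ‖h‖)
    (fun z _ => differentiable_fderiv hu.smooth z) (fun z hz => by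
      have := hu.hess_lip (z - x) x
      rw [add_sub_cancel] at this
      refine this.trans (mul_le_mul_of_nonneg_left ?_ (thirdC_nonneg n))
      simpa [dist_eq_norm] using hz)
    (convex_closedBall _ _) (Metric.mem_closedBall_self (norm_nonneg h))
    (show x + h ∈ Metric.closedBall x ‖h‖ by simp)
  rw [add_sub_cancel_left] at this
  have hv := (fderiv ℝ u (x + h) - fderiv ℝ u x - hess u x h).le_opNorm v
  rw [sub_apply, sub_apply, Real.norm_eq_abs] at hv
  refine hv.trans (mul_le_mul_of_nonneg_right (this.trans (le_of_eq ?_)) (norm_nonneg _))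
  ring

end Sol

/-- Pointwise limits keep a quadratic Taylor bound, and the derivatives converge. -/
lemma limit_deriv {f : ℕ → Spc n → ℝ} {D : ℕ → Spc n → Spc n →L[ℝ] ℝ} {C : ℝ}
    (hT : ∀ m x h, |f m (x + h) - f m x - D m x h| ≤ C * ‖h‖ ^ 2)
    {g : Spc n → ℝ} (hg : ∀ x, Tendsto (fun m => f m x) atTop (𝓝 (g x))) :
    Differentiable ℝ g ∧ ∀ x v, Tendsto (fun m => D m x v) atTop (𝓝 (fderiv ℝ g x v)) := by
  have hlim : ∀ x v, ∃ l, Tendsto (fun m => D m x v) atTop (𝓝 l) := by
    intro x v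
    refine cauchySeq_tendsto_of_complete (Metric.cauchySeq_iff'.2 fun ε hε => ?_)
    set t := ε / (4 * (|C| * ‖v‖ ^ 2 + 1)) with ht
    have hCv : 0 < |C| * ‖v‖ ^ 2 + 1 := by positivity
    have ht0 : 0 < t := by positivity
    have h1 := Metric.cauchySeq_iff'.1 (hg (x + t • v)).cauchySeq (ε * t / 8) (by positivity)
    have h2 := Metric.cauchySeq_iff'.1 (hg x).cauchySeq (ε * t / 8) (by positivity)
    obtain ⟨M1, hM1⟩ := Metric.tendsto_atTop.1 (hg (x + t • v)) (ε * t / 16) (by positivity)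
    obtain ⟨M2, hM2⟩ := Metric.tendsto_atTop.1 (hg x) (ε * t / 16) (by positivity)
    refine ⟨max M1 M2, fun m hm => ?_⟩
    set M := max M1 M2
    rw [Real.dist_eq]
    have a1 := hM1 m (le_of_max_le_left hm)
    have a2 := hM1 M (le_max_left _ _)
    have a3 := hM2 m (le_of_max_le_right hm)
    have a4 := hM2 M (le_max_right _ _)
    rw [Real.dist_eq] at a1 a2 a3 a4
    have e1 := hT m x (t • v)
    have e2 := hT M x (t • v)
    rw [map_smul, smul_eq_mul, norm_smul, Real.norm_eq_abs, abs_of_pos ht0] at e1 e2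
    have hquad : C * (t * ‖v‖) ^ 2 ≤ t * (ε / 4) := by
      have : C * ‖v‖ ^ 2 ≤ |C| * ‖v‖ ^ 2 + 1 := by
        nlinarith [le_abs_self C, sq_nonneg ‖v‖]
      have e : t * (|C| * ‖v‖ ^ 2 + 1) = ε / 4 := by rw [ht]; field_simp
      nlinarith [mul_le_mul_of_nonneg_left this (sq_nonneg t)]
    rw [abs_lt]
    rw [abs_lt] at a1 a2 a3 a4
    rw [abs_le] at e1 e2
    constructor <;>
      nlinarith [e1.1, e1.2, e2.1, e2.2, a1.1, a1.2, a2.1, a2.2, a3.1, a3.2, a4.1, a4.2]
  choose l hl using hlim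
  let Llin : Spc n → Spc n →ₗ[ℝ] ℝ := fun x =>
    { toFun := l x
      map_add' := fun v w => tendsto_nhds_unique (hl x (v + w))
        (((hl x v).add (hl x w)).congr fun m => ((D m x).map_add v w).symm)
      map_smul' := fun c v => tendsto_nhds_unique (hl x (c • v))
        (((hl x v).const_mul c).congr fun m => ((D m x).map_smul c v).symm) }
  let L : Spc n → Spc n →L[ℝ] ℝ := fun x => LinearMap.toContinuousLinearMap (Llin x)
  have hTg : ∀ x h, |g (x + h) - g x - L x h| ≤ C * ‖h‖ ^ 2 := fun x h =>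
    le_of_tendsto ((((hg (x + h)).sub (hg x)).sub (hl x h)).abs) (Eventually.of_forall fun m => hT m x h)
  have hd : ∀ x, HasFDerivAt g (L x) x := by
    intro x
    rw [hasFDerivAt_iff_isLittleO_nhds_zero]
    refine Asymptotics.IsBigO.trans_isLittleO (g := fun h : Spc n => ‖h‖ ^ 2) ?_ ?_
    · refine Asymptotics.IsBigO.of_bound C (Eventually.of_forall fun h => ?_)
      simpa using hTg x h
    · exact Asymptotics.isLittleO_norm_pow_id one_lt_two
  refine ⟨fun x => (hd x).differentiableAt, fun x v => ?_⟩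
  rw [(hd x).fderiv]
  exact hl x v

/-- Limits of solutions are solutions, with convergence of two derivatives. -/
theorem Sol.limit {f : ℕ → Spc n → ℝ} (hf : ∀ m, Sol (f m)) {g : Spc n → ℝ}
    (hg : ∀ x, Tendsto (fun m => f m x) atTop (𝓝 (g x))) :
    Sol g ∧ (∀ x v, Tendsto (fun m => fderiv ℝ (f m) x v) atTop (𝓝 (fderiv ℝ g x v))) ∧
      ∀ x v w, Tendsto (fun m => hess (f m) x v w) atTop (𝓝 (hess g x v w)) := by
  obtain ⟨hd, h1⟩ := limit_deriv (fun m x h => (hf m).taylor x h) hg
  have hstep : ∀ v, Differentiable ℝ (fun x => fderiv ℝ g x v) ∧ ∀ x w,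
      Tendsto (fun m => hess (f m) x w v) atTop
        (𝓝 (fderiv ℝ (fun x => fderiv ℝ g x v) x w)) := fun v =>
    limit_deriv (f := fun m x => fderiv ℝ (f m) x v)
      (D := fun m x => (ContinuousLinearMap.apply ℝ ℝ v).comp (hess (f m) x))
      (C := thirdC n * ‖v‖) (fun m x h => by
        refine ((hf m).taylor_deriv x h v).trans (le_of_eq ?_)
        ring) (fun x => h1 x v)
  have hdf : Differentiable ℝ (fderiv ℝ g) := by
    have he : fderiv ℝ g =
        fun x => ∑ i, fderiv ℝ g x (bas i) • (EuclideanSpace.proj i : Spc n →L[ℝ] ℝ) := by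
      funext x
      refine ContinuousLinearMap.ext fun v => ?_
      conv_lhs => rw [← (EuclideanSpace.basisFun (Fin n) ℝ).sum_repr v]
      simp [mul_comm]
    rw [he]
    exact Differentiable.fun_sum fun i _ => (hstep (bas i)).1.smul_const _
  have hhess : ∀ x v w, fderiv ℝ (fun x => fderiv ℝ g x v) x w = hess g x w v := by
    intro x v w
    rw [show (fun x => fderiv ℝ g x v) = ⇑(ContinuousLinearMap.apply ℝ ℝ v) ∘ fderiv ℝ g from rfl]
    rw [((ContinuousLinearMap.apply ℝ ℝ v).hasFDerivAt.comp x (hdf x).hasFDerivAt).fderiv]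
    rfl
  have h2 : ∀ x v w, Tendsto (fun m => hess (f m) x v w) atTop (𝓝 (hess g x v w)) :=
    fun x v w => by rw [← hhess]; exact (hstep w).2 x v
  have hlip : ∀ x h v w, |hess g (x + h) v w - hess g x v w| ≤ thirdC n * ‖h‖ * ‖v‖ * ‖w‖ := by
    intro x h v w
    refine le_of_tendsto ((h2 (x + h) v w).sub (h2 x v w)).abs (Eventually.of_forall fun m => ?_)
    have := ((hess (f m) (x + h) - hess (f m) x).le_opNorm₂ v w)
    rw [sub_apply, sub_apply, Real.norm_eq_abs] at this
    refine this.trans ?_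
    gcongr
    exact (hf m).hess_lip h x
  have hcont : Continuous (fderiv ℝ (fderiv ℝ g)) := by
    suffices h : LipschitzWith ⟨thirdC n, thirdC_nonneg n⟩ (fderiv ℝ (fderiv ℝ g)) from h.continuous
    refine LipschitzWith.of_dist_le_mul fun a b => ?_
    rw [dist_eq_norm, dist_eq_norm]
    refine ContinuousLinearMap.opNorm_le_bound₂ _
      (mul_nonneg (thirdC_nonneg n) (norm_nonneg _)) fun v w => ?_
    have := hlip b (a - b) v w
    rw [add_sub_cancel] at this
    rw [sub_apply, sub_apply, Real.norm_eq_abs]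
    exact this
  have hsmooth : ContDiff ℝ 2 g := by
    rw [show (2 : WithTop ℕ∞) = 1 + 1 from rfl, contDiff_succ_iff_fderiv]
    refine ⟨hd, by simp, ?_⟩
    rw [contDiff_one_iff_fderiv]
    exact ⟨hdf, hcont⟩
  refine ⟨⟨hsmooth, fun x => le_of_tendsto (hg x).abs (Eventually.of_forall fun m => (hf m).bound x),
    fun x => ?_⟩, h1, h2⟩
  refine tendsto_nhds_unique (f := fun m => Δ (f m) x) ?_
    ((((hg x).pow 3).sub (hg x)).congr fun m => ((hf m).eq x).symm)
  simp only [lap_eq]
  exact tendsto_finsetSum _ fun i _ => h2 x (bas i) (bas i)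

end Vale.Agent.P134

end
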