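import Vale.Agent.P134.Solution

/-!
P134: weak forms of the equation, stability, and almost periods.
-/

noncomputable section

open Topology Filter Laplacian MeasureTheory

namespace Vale.Agent.P134

variable {n : ℕ}

/-- The pairing of two gradients. -/
def gdot (g η : Spc n → ℝ) (x : Spc n) : ℝ :=
  ∑ i, fderiv ℝ g x (bas i) * fderiv ℝ η x (bas i)

/-- The density of the second variation. -/
def dens (u g : Spc n → ℝ) (x : Spc n) : ℝ := gdot g g x + (3 * u x ^ 2 - 1) * g x ^ 2

/-- Stability of a solution. -/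
def Stable (u : Spc n → ℝ) : Prop :=
  ∀ g : Spc n → ℝ, ContDiff ℝ 1 g → HasCompactSupport g → 0 ≤ ∫ x, dens u g x

lemma gdot_self_nonneg (g : Spc n → ℝ) (x : Spc n) : 0 ≤ gdot g g x :=
  Finset.sum_nonneg fun _ _ => mul_self_nonneg _

lemma abs_apply_le (L : Spc n →L[ℝ] ℝ) (y : Spc n) : |L y| ≤ ‖y‖ * ∑ i, |L (bas i)| := by
  conv_lhs => rw [← (EuclideanSpace.basisFun (Fin n) ℝ).sum_repr y, map_sum]
  rw [Finset.mul_sum]
  refine (Finset.abs_sum_le_sum_abs _ _).trans (Finset.sum_le_sum fun i _ => ?_)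
  rw [map_smul, smul_eq_mul, abs_mul]
  exact mul_le_mul_of_nonneg_right (PiLp.norm_apply_le y i) (abs_nonneg _)

lemma sq_fderiv_le (g : Spc n → ℝ) (x y : Spc n) :
    fderiv ℝ g x y ^ 2 ≤ ‖y‖ ^ 2 * gdot g g x := by
  conv_lhs => rw [← (EuclideanSpace.basisFun (Fin n) ℝ).sum_repr y, map_sum]
  simp only [map_smul, smul_eq_mul]
  refine (Finset.sum_mul_sq_le_sq_mul_sq _ _ _).trans (le_of_eq ?_)
  rw [EuclideanSpace.norm_sq_eq]
  simp [gdot, sq]

lemma gdot_self_le (g : Spc n → ℝ) (x : Spc n) : gdot g g x ≤ n * ‖fderiv ℝ g x‖ ^ 2 := by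
  refine (Finset.sum_le_card_nsmul _ _ (‖fderiv ℝ g x‖ ^ 2) fun i _ => ?_).trans (by simp)
  have h := (fderiv ℝ g x).le_opNorm (bas i)
  rw [OrthonormalBasis.norm_eq_one, mul_one, Real.norm_eq_abs] at h
  nlinarith [abs_mul_abs_self (fderiv ℝ g x (bas i)), abs_nonneg (fderiv ℝ g x (bas i))]

lemma continuous_fderiv_apply {g : Spc n → ℝ} (hg : ContDiff ℝ 1 g) (w : Spc n) :
    Continuous fun x => fderiv ℝ g x w :=
  (hg.continuous_fderiv one_ne_zero).clm_apply continuous_const

lemma continuous_gdot {g η : Spc n → ℝ} (hg : ContDiff ℝ 1 g) (hη : ContDiff ℝ 1 η) :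
    Continuous (gdot g η) :=
  continuous_finsetSum _ fun _ _ =>
    (continuous_fderiv_apply hg _).mul (continuous_fderiv_apply hη _)

lemma hasCompactSupport_gdot (g : Spc n → ℝ) {η : Spc n → ℝ} (hc : HasCompactSupport η) :
    HasCompactSupport (gdot g η) := by
  refine (hc.fderiv ℝ).mono fun x hx => ?_
  contrapose! hx
  simp only [Function.mem_support, ne_eq, not_not] at hx ⊢
  simp [gdot, hx]

lemma integrable_cs {F : Spc n → ℝ} (hF : Continuous F) (hc : HasCompactSupport F) :
    Integrable F := hF.integrable_of_hasCompactSupport hc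

lemma hess_symm {u : Spc n → ℝ} (hu : ContDiff ℝ 2 u) (x v w : Spc n) :
    hess u x v w = hess u x w v :=
  (hu.contDiffAt.isSymmSndFDerivAt (by simp)).eq v w

lemma hasFDerivAt_deriv {u : Spc n → ℝ} (hu : ContDiff ℝ 2 u) (x e : Spc n) :
    HasFDerivAt (fun y => fderiv ℝ u y e)
      ((ContinuousLinearMap.apply ℝ ℝ e).comp (hess u x)) x :=
  (ContinuousLinearMap.apply ℝ ℝ e).hasFDerivAt.comp x (differentiable_fderiv hu x).hasFDerivAt

lemma contDiff_deriv {u : Spc n → ℝ} (hu : ContDiff ℝ 2 u) (e : Spc n) :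
    ContDiff ℝ 1 fun y => fderiv ℝ u y e :=
  (hu.fderiv_right (m := 1) le_rfl).clm_apply contDiff_const

lemma fderiv_deriv {u : Spc n → ℝ} (hu : ContDiff ℝ 2 u) (x e w : Spc n) :
    fderiv ℝ (fun y => fderiv ℝ u y e) x w = hess u x w e := by
  rw [(hasFDerivAt_deriv hu x e).fderiv]
  rfl

namespace Sol

variable {u : Spc n → ℝ} (hu : Sol u)
include hu

lemma smooth_one : ContDiff ℝ 1 u := hu.smooth.of_le (by norm_num)

lemma weak {η : Spc n → ℝ} (hη : ContDiff ℝ 1 η) (hc : HasCompactSupport η) :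
    ∫ x, (gdot u η x + nlf (u x) * η x) = 0 := by
  have hi : ∀ i, Integrable fun x => fderiv ℝ u x (bas i) * fderiv ℝ η x (bas i) := fun i =>
    integrable_cs ((continuous_fderiv_apply hu.smooth_one _).mul (continuous_fderiv_apply hη _))
      ((hc.fderiv_apply ℝ (bas i)).mul_left)
  have hj : ∀ i, Integrable fun x => hess u x (bas i) (bas i) * η x := fun i =>
    integrable_cs ((((continuous_hess hu.smooth).clm_apply continuous_const).clm_apply
      continuous_const).mul hη.continuous) hc.mul_left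
  have hk : Integrable fun x => nlf (u x) * η x :=
    integrable_cs (((hu.smooth.continuous.pow 3).sub hu.smooth.continuous).mul hη.continuous)
      hc.mul_left
  have hp : ∀ i, ∫ x, fderiv ℝ u x (bas i) * fderiv ℝ η x (bas i) =
      -∫ x, hess u x (bas i) (bas i) * η x := by
    intro i
    rw [integral_mul_fderiv_eq_neg_fderiv_mul_of_integrable]
    · simp only [fderiv_deriv hu.smooth]
    · simpa only [fderiv_deriv hu.smooth] using hj i
    · exact hi i
    · exact integrable_cs ((continuous_fderiv_apply hu.smooth_one _).mul hη.continuous) hc.mul_left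
    · exact fun x _ => (hasFDerivAt_deriv hu.smooth x (bas i)).differentiableAt
    · exact fun x _ => hη.differentiable one_ne_zero x
  have hg : Integrable (gdot u η) := integrable_cs (continuous_gdot hu.smooth_one hη)
    (hasCompactSupport_gdot u hc)
  rw [integral_add hg hk]
  simp only [gdot]
  rw [integral_finsetSum _ fun i _ => hi i]
  simp only [hp, Finset.sum_neg_distrib, ← integral_finsetSum _ fun i _ => hj i,
    ← Finset.sum_mul, ← lap_eq, hu.lap_nlf, neg_add_cancel]

lemma weak_deriv {η : Spc n → ℝ} (hη : ContDiff ℝ 1 η) (hc : HasCompactSupport η) (e : Spc n) :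
    ∫ x, (gdot (fun y => fderiv ℝ u y e) η x +
      (3 * u x ^ 2 - 1) * fderiv ℝ u x e * η x) = 0 := by
  set t : ℕ → ℝ := fun m => 1 / (m + 1) with ht
  have ht0 : ∀ m, 0 < t m := fun m => by positivity
  have htl : Tendsto t atTop (𝓝[≠] 0) := tendsto_nhdsWithin_iff.2
    ⟨tendsto_one_div_add_atTop_nhds_zero_nat, Eventually.of_forall fun m => (ht0 m).ne'⟩
  set q : ℕ → Spc n → ℝ := fun m x =>
    (∑ i, (t m)⁻¹ * (fderiv ℝ u (x + t m • e) (bas i) - fderiv ℝ u x (bas i)) *
        fderiv ℝ η x (bas i)) +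
      (t m)⁻¹ * (nlf (u (x + t m • e)) - nlf (u x)) * η x with hq
  have hzero : ∀ m, ∫ x, q m x = 0 := by
    intro m
    have hs := hu.translate (t m • e)
    have hA : ∀ {w : Spc n → ℝ}, Sol w → Integrable fun x => gdot w η x + nlf (w x) * η x :=
      fun {w} hw => (integrable_cs (continuous_gdot hw.smooth_one hη)
        (hasCompactSupport_gdot w hc)).add (integrable_cs
          (((hw.smooth.continuous.pow 3).sub hw.smooth.continuous).mul hη.continuous) hc.mul_left)
    have e1 : q m = fun x => (t m)⁻¹ * ((gdot (fun y => u (y + t m • e)) η x +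
        nlf (u (x + t m • e)) * η x) - (gdot u η x + nlf (u x) * η x)) := by
      funext x
      simp only [hq, gdot, fderiv_translate, mul_assoc, ← Finset.mul_sum, sub_mul,
        Finset.sum_sub_distrib]
      ring
    rw [e1, integral_const_mul, integral_sub (hA hs) (hA hu), hs.weak hη hc, hu.weak hη hc,
      sub_zero, mul_zero]
  refine tendsto_nhds_unique (f := fun m => ∫ x, q m x) (l := atTop) ?_ (by simp [hzero])
  refine tendsto_integral_of_dominated_convergence
    (fun x => (∑ i, hessC n * ‖e‖ * |fderiv ℝ η x (bas i)|) + 4 * (gradC n * ‖e‖) * |η x|)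
    (fun m => ?_) ?_ (fun m => Eventually.of_forall fun x => ?_) (Eventually.of_forall fun x => ?_)
  · have hsh : Continuous fun x : Spc n => x + t m • e := continuous_id.add continuous_const
    refine (Continuous.add ?_ ?_).aestronglyMeasurable
    · exact continuous_finsetSum _ fun i _ => (continuous_const.mul
        (((continuous_fderiv_apply hu.smooth_one _).comp hsh).sub
          (continuous_fderiv_apply hu.smooth_one _))).mul (continuous_fderiv_apply hη _)
    · exact (continuous_const.mul ((((hu.smooth.continuous.comp hsh).pow 3).sub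
        (hu.smooth.continuous.comp hsh)).sub
          ((hu.smooth.continuous.pow 3).sub hu.smooth.continuous))).mul hη.continuous
  · refine (integrable_finsetSum _ fun i _ => ?_).add ?_
    · exact (integrable_cs (continuous_fderiv_apply hη (bas i))
        (hc.fderiv_apply ℝ (bas i))).abs.const_mul _
    · exact (integrable_cs hη.continuous hc).abs.const_mul _
  · have hT : ‖t m • e‖ = t m * ‖e‖ := by rw [norm_smul, Real.norm_eq_abs, abs_of_pos (ht0 m)]
    rw [Real.norm_eq_abs]
    refine (abs_add_le _ _).trans (add_le_add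
      ((Finset.abs_sum_le_sum_abs _ _).trans (Finset.sum_le_sum fun i _ => ?_)) ?_)
    · rw [abs_mul, abs_mul, abs_inv, abs_of_pos (ht0 m)]
      refine mul_le_mul_of_nonneg_right ((inv_mul_le_iff₀ (ht0 m)).2 ?_) (abs_nonneg _)
      have h := (fderiv ℝ u (x + t m • e) - fderiv ℝ u x).le_opNorm (bas i)
      rw [sub_apply, OrthonormalBasis.norm_eq_one, mul_one, Real.norm_eq_abs] at h
      refine h.trans ((hu.grad_lip (t m • e) x).trans (le_of_eq ?_))
      rw [hT]; ring
    · rw [abs_mul, abs_mul, abs_inv, abs_of_pos (ht0 m)]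
      refine mul_le_mul_of_nonneg_right ((inv_mul_le_iff₀ (ht0 m)).2 ?_) (abs_nonneg _)
      refine (nlf_lip (hu.bound _) (hu.bound _)).trans ?_
      have h := hu.lip x (x + t m • e)
      rw [add_sub_cancel_left, hT] at h
      linarith
  · refine Tendsto.add (tendsto_finsetSum _ fun i _ => Tendsto.mul_const _ ?_)
      (Tendsto.mul_const _ ?_)
    · have h := (hasDerivAt_line_fderiv hu.smooth x e (bas i) 0).tendsto_slope_zero.comp htl
      simp only [zero_smul, add_zero, zero_add, Function.comp_def, smul_eq_mul] at h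
      rw [fderiv_deriv hu.smooth, hess_symm hu.smooth]
      exact h
    · have h1 := hasDerivAt_line (differentiable_of_two hu.smooth) x e 0
      have h := (((h1.pow 3).sub h1).tendsto_slope_zero.comp htl)
      simp only [zero_smul, add_zero, zero_add, Function.comp_def, smul_eq_mul, Pi.sub_apply,
        Pi.pow_apply] at h
      refine (h.congr fun m => ?_).trans (le_of_eq ?_)
      · rfl
      · congr 1
        push_cast
        ring

/-- A solution increasing in some direction is stable. -/
lemma stable_of_mono {e : Spc n} (he : ∀ x, 0 < fderiv ℝ u x e) : Stable u := by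
  intro g hg hc
  set w := fun y => fderiv ℝ u y e with hw
  have hw1 : ContDiff ℝ 1 w := contDiff_deriv hu.smooth e
  set η := fun y => g y ^ 2 / w y with hη
  have hη1 : ContDiff ℝ 1 η := (hg.pow 2).div hw1 fun y => (he y).ne'
  have hηc : HasCompactSupport η := hc.mono fun y hy => by
    contrapose! hy
    simp only [Function.mem_support, ne_eq, not_not] at hy ⊢
    simp [hη, hy]
  have h0 := hu.weak_deriv hη1 hηc e
  rw [← h0]
  refine integral_mono_ae ?_ ?_ (Eventually.of_forall fun x => ?_)
  · exact (integrable_cs (continuous_gdot hw1 hη1) (hasCompactSupport_gdot w hηc)).add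
      (integrable_cs (((continuous_const.mul (hu.smooth.continuous.pow 2)).sub
        continuous_const).mul hw1.continuous |>.mul hη1.continuous) hηc.mul_left)
  · exact (integrable_cs (continuous_gdot hg hg) (hasCompactSupport_gdot g hc)).add
      (integrable_cs (((continuous_const.mul (hu.smooth.continuous.pow 2)).sub
        continuous_const).mul (hg.continuous.pow 2))
        (HasCompactSupport.mul_left (hc.mono fun y hy => by
          contrapose! hy
          simp only [Function.mem_support, ne_eq, not_not] at hy ⊢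
          simp [hy])))
  · have hne : w x ≠ 0 := (he x).ne'
    have hd : ∀ b, fderiv ℝ η x b =
        2 * (g x / w x) * fderiv ℝ g x b - (g x / w x) ^ 2 * fderiv ℝ w x b := by
      intro b
      have h1 := hasDerivAt_line (hη1.differentiable one_ne_zero) x b 0
      have h2 := ((hasDerivAt_line (hg.differentiable one_ne_zero) x b 0).pow 2).div
        (hasDerivAt_line (hw1.differentiable one_ne_zero) x b 0) (by simpa using hne)
      have h := h1.unique h2
      simp only [zero_smul, add_zero] at h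
      rw [h]
      simp only [Pi.pow_apply, zero_smul, add_zero]
      field_simp
      ring
    refine add_le_add (Finset.sum_le_sum fun i _ => ?_) (le_of_eq ?_)
    · rw [hd]
      nlinarith [sq_nonneg (fderiv ℝ g x (bas i) - g x / w x * fderiv ℝ w x (bas i))]
    · simp only [hη]
      change (3 * u x ^ 2 - 1) * w x * _ = _
      field_simp

lemma abs_pot_le (x : Spc n) : |3 * u x ^ 2 - 1| ≤ 2 := by
  have h := abs_le.1 (hu.bound x)
  rw [abs_le]
  constructor <;> nlinarith

end Sol

/-- Stability passes to pointwise limits. -/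
lemma stable_limit {f : ℕ → Spc n → ℝ} (hf : ∀ m, Sol (f m)) (hs : ∀ m, Stable (f m))
    {g : Spc n → ℝ} (hg : ∀ x, Tendsto (fun m => f m x) atTop (𝓝 (g x))) : Stable g := by
  intro η hη hc
  refine ge_of_tendsto (x := atTop) (f := fun m => ∫ x, dens (f m) η x) ?_
    (Eventually.of_forall fun m => hs m η hη hc)
  refine tendsto_integral_of_dominated_convergence (fun x => gdot η η x + 2 * η x ^ 2)
    (fun m => ?_) ?_ (fun m => Eventually.of_forall fun x => ?_) (Eventually.of_forall fun x => ?_)
  · exact ((continuous_gdot hη hη).add (((continuous_const.mul ((hf m).smooth.continuous.pow 2)).sub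
      continuous_const).mul (hη.continuous.pow 2))).aestronglyMeasurable
  · refine (integrable_cs (continuous_gdot hη hη) (hasCompactSupport_gdot η hc)).add ?_
    simp only [sq]
    exact (integrable_cs (hη.continuous.mul hη.continuous) hc.mul_left).const_mul 2
  · rw [Real.norm_eq_abs, dens]
    refine (abs_add_le _ _).trans (add_le_add (le_of_eq (abs_of_nonneg (gdot_self_nonneg η x))) ?_)
    rw [abs_mul, abs_of_nonneg (sq_nonneg (η x))]
    exact mul_le_mul_of_nonneg_right ((hf m).abs_pot_le x) (sq_nonneg _)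
  · exact ((((hg x).pow 2).const_mul 3).sub_const 1).mul_const _ |>.const_add _

/-- Bohr almost periodicity along a subspace. -/
def AP (W : Submodule ℝ (Spc n)) (u : Spc n → ℝ) : Prop :=
  ∀ ε > (0 : ℝ), ∃ L : ℝ, ∀ p ∈ W, ∃ τ ∈ W, ‖τ - p‖ ≤ L ∧ ∀ x, |u (x + τ) - u x| ≤ ε

/-- Almost periods are almost periods of the derivative, given a quadratic Taylor bound. -/
lemma close_deriv {f : Spc n → ℝ} {D : Spc n → Spc n →L[ℝ] ℝ} {C : ℝ}
    (hT : ∀ x h, |f (x + h) - f x - D x h| ≤ C * ‖h‖ ^ 2) (v : Spc n) {κ : ℝ} (hκ : 0 < κ) :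
    ∃ ε > (0 : ℝ), ∀ τ, (∀ x, |f (x + τ) - f x| ≤ ε) → ∀ x, |D (x + τ) v - D x v| ≤ κ := by
  set t := κ / (4 * (|C| * ‖v‖ ^ 2 + 1)) with ht
  have hp : 0 < |C| * ‖v‖ ^ 2 + 1 := by positivity
  have ht0 : 0 < t := by positivity
  refine ⟨κ * t / 4, by positivity, fun τ hτ x => ?_⟩
  have e1 := hT (x + τ) (t • v)
  have e2 := hT x (t • v)
  have a1 := hτ x
  have a2 := hτ (x + t • v)
  rw [show x + t • v + τ = x + τ + t • v by abel] at a2
  rw [map_smul, smul_eq_mul, norm_smul, Real.norm_eq_abs, abs_of_pos ht0] at e1 e2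
  have hquad : C * (t * ‖v‖) ^ 2 ≤ t * (κ / 4) := by
    have : C * ‖v‖ ^ 2 ≤ |C| * ‖v‖ ^ 2 + 1 := by nlinarith [le_abs_self C, sq_nonneg ‖v‖]
    have e : t * (|C| * ‖v‖ ^ 2 + 1) = κ / 4 := by rw [ht]; field_simp
    nlinarith [mul_le_mul_of_nonneg_left this (sq_nonneg t)]
  rw [abs_le] at *
  constructor <;> nlinarith [e1.1, e1.2, e2.1, e2.2, a1.1, a1.2, a2.1, a2.2]

/-- Small almost periods move the first two derivatives little. -/
lemma Sol.close {u : Spc n → ℝ} (hu : Sol u) (e : Spc n) {κ : ℝ} (hκ : 0 < κ) :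
    ∃ ε > (0 : ℝ), ∀ τ, (∀ x, |u (x + τ) - u x| ≤ ε) → ∀ x,
      |fderiv ℝ u (x + τ) e - fderiv ℝ u x e| ≤ κ ∧
        ∀ y, |hess u (x + τ) y e - hess u x y e| ≤ ‖y‖ * (n * κ) := by
  have hd := fun i : Fin n => close_deriv (f := fun x => fderiv ℝ u x e)
    (D := fun x => (ContinuousLinearMap.apply ℝ ℝ e).comp (hess u x)) (C := thirdC n * ‖e‖)
    (fun x h => (hu.taylor_deriv x h e).trans (le_of_eq (by ring))) (bas i) hκ
  choose d hd0 hd using hd
  obtain ⟨μ, hμ0, hμ, hμi⟩ : ∃ μ > (0 : ℝ), μ ≤ κ ∧ ∀ i, μ ≤ d i := by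
    by_cases hn : Nonempty (Fin n)
    · exact ⟨min κ (Finset.univ.inf' Finset.univ_nonempty d),
        lt_min hκ (by simp [hd0]), min_le_left _ _,
        fun i => (min_le_right _ _).trans (Finset.inf'_le _ (Finset.mem_univ i))⟩
    · exact ⟨κ, hκ, le_rfl, fun i => (hn ⟨i⟩).elim⟩
  obtain ⟨ε, hε, hεv⟩ := close_deriv hu.taylor e hμ0
  refine ⟨ε, hε, fun τ hτ x => ⟨(hεv τ hτ x).trans hμ, fun y => ?_⟩⟩
  have h := abs_apply_le ((ContinuousLinearMap.apply ℝ ℝ e).comp (hess u (x + τ) - hess u x)) y
  refine h.trans (mul_le_mul_of_nonneg_left ?_ (norm_nonneg y))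
  refine (Finset.sum_le_card_nsmul _ _ κ fun i _ => ?_).trans (by simp)
  exact hd i τ (fun z => (hεv τ hτ z).trans (hμi i)) x

end Vale.Agent.P134

end
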